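import Vale.Agent.P050.O.H774.LongSub
import Vale.Agent.P050.O.H738.CrossLimit

set_option linter.all false

/-!
Large powers of a kernel and the classes of vertices joined by walks of even length.
-/

open Finset

namespace Vale.Agent.P050.Opt

open Vale.Agent.P050 Vale.Agent.P050.Dense

theorem kpow_cls {X : Type} [Fintype X] [DecidableEq X] [Nonempty X] (W : X → X → ℝ)
    (hs : ∀ x y, W x y = W y x) (h0 : ∀ x y, 0 ≤ W x y) {η : ℝ} (hη : 0 < η) :
    ∃ L : ℕ, 1 ≤ L ∧ ∀ m ≥ L,
      (∀ x x1 y y1, H774.cls (Matrix.of W) x = H774.cls (Matrix.of W) x1 →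
        kpow W m x y ≠ 0 → kpow W m x1 y1 ≠ 0 →
        H774.cls (Matrix.of W) y = H774.cls (Matrix.of W) y1) ∧
      (∀ x y, kpow W m x y *
        (∑ a ∈ univ.filter (fun a => H774.cls (Matrix.of W) a = H774.cls (Matrix.of W) x),
          ∑ c, kpow W m a c) ≤
        (1 + η) * ((∑ c, kpow W m x c) * ∑ c, kpow W m y c)) := by
  have hs' : ∀ x y, Matrix.of W x y = Matrix.of W y x := hs
  have h0' : ∀ x y, 0 ≤ Matrix.of W x y := h0
  obtain ⟨k0, hk0⟩ := H738NB.cross_limit (Matrix.of W) hs' h0' hη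
  have hN : (0:ℝ) < Fintype.card X := by exact_mod_cast Fintype.card_pos
  refine ⟨max k0 1, le_max_right _ _, fun m hm => ?_⟩
  have hmk : k0 ≤ m := le_trans (le_max_left _ _) hm
  have hc : (0:ℝ) < (Fintype.card X : ℝ) ^ (m - 1) := pow_pos hN _
  have hnn : ∀ x y, 0 ≤ kpow W m x y := fun x y =>
    div_nonneg (H774.pow_entry_nonneg h0' _ _ _) hc.le
  have hpos : ∀ x y, kpow W m x y ≠ 0 → 0 < (Matrix.of W ^ m) x y := by
    intro x y h
    refine lt_of_le_of_ne (H774.pow_entry_nonneg h0' _ _ _) fun h' => h ?_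
    rw [kpow, ← h', zero_div]
  have hcl : ∀ x x1 y y1, H774.Rel (Matrix.of W) x x1 →
      kpow W m x y ≠ 0 → kpow W m x1 y1 ≠ 0 → H774.Rel (Matrix.of W) y y1 := by
    intro x x1 y y1 hx h1 h2
    obtain ⟨j, hj⟩ := hx
    have h3 := hpos _ _ h1
    have h4 := hpos _ _ h2
    rw [H774.pow_entry_symm hs'] at h3
    refine ⟨m + j, ?_⟩
    have h5 : 2 * (m + j) = m + 2 * j + m := by ring
    rw [h5, pow_add, Matrix.mul_apply]
    refine lt_of_lt_of_le (mul_pos ?_ h4) (Finset.single_le_sum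
      (f := fun t => (Matrix.of W ^ (m + 2 * j)) y t * (Matrix.of W ^ m) t y1)
      (fun t _ => mul_nonneg (H774.pow_entry_nonneg h0' _ _ _)
        (H774.pow_entry_nonneg h0' _ _ _)) (Finset.mem_univ x1))
    rw [pow_add, Matrix.mul_apply]
    exact lt_of_lt_of_le (mul_pos h3 hj) (Finset.single_le_sum
      (f := fun t => (Matrix.of W ^ m) y t * (Matrix.of W ^ (2 * j)) t x1)
      (fun t _ => mul_nonneg (H774.pow_entry_nonneg h0' _ _ _)
        (H774.pow_entry_nonneg h0' _ _ _)) (Finset.mem_univ x))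
  refine ⟨fun x x1 y y1 hx h1 h2 => ?_, fun x y => ?_⟩
  · exact (H774.cls_eq_iff hs' h0').mpr
      (H774.rel_symm hs' (hcl x x1 y y1
        (H774.rel_symm hs' ((H774.cls_eq_iff hs' h0').mp hx)) h1 h2))
  · have hcross : ∀ a, H774.cls (Matrix.of W) a = H774.cls (Matrix.of W) x → ∀ c,
        kpow W m x y * kpow W m a c ≤ (1 + η) * (kpow W m x c * kpow W m a y) := by
      intro a ha c
      have hrel : H774.Rel (Matrix.of W) x a := (H774.cls_eq_iff hs' h0').mp ha
      have hR : 0 ≤ (1 + η) * (kpow W m x c * kpow W m a y) :=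
        mul_nonneg (by linarith) (mul_nonneg (hnn _ _) (hnn _ _))
      by_cases h1 : kpow W m x y = 0
      · rw [h1, zero_mul]; exact hR
      by_cases h2 : kpow W m a c = 0
      · rw [h2, mul_zero]; exact hR
      have h3 := hk0 m hmk x a y c hrel (hcl x a y c hrel h1 h2)
      have h4 : 0 ≤ ((Fintype.card X : ℝ) ^ (m - 1))⁻¹ * ((Fintype.card X : ℝ) ^ (m - 1))⁻¹ :=
        mul_nonneg (inv_nonneg.mpr hc.le) (inv_nonneg.mpr hc.le)
      have h5 := mul_le_mul_of_nonneg_left h3 h4
      simp only [kpow, div_eq_mul_inv]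
      calc _ = ((Fintype.card X : ℝ) ^ (m - 1))⁻¹ * ((Fintype.card X : ℝ) ^ (m - 1))⁻¹ *
            ((Matrix.of W ^ m) x y * (Matrix.of W ^ m) a c) := by ring
        _ ≤ _ := h5
        _ = _ := by ring
    calc kpow W m x y *
        (∑ a ∈ univ.filter (fun a => H774.cls (Matrix.of W) a = H774.cls (Matrix.of W) x),
          ∑ c, kpow W m a c)
        = ∑ a ∈ univ.filter (fun a => H774.cls (Matrix.of W) a = H774.cls (Matrix.of W) x),
          ∑ c, kpow W m x y * kpow W m a c := by
          rw [Finset.mul_sum]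
          exact Finset.sum_congr rfl fun a _ => Finset.mul_sum _ _ _
      _ ≤ ∑ a ∈ univ.filter (fun a => H774.cls (Matrix.of W) a = H774.cls (Matrix.of W) x),
          ∑ c, (1 + η) * (kpow W m x c * kpow W m a y) :=
          Finset.sum_le_sum fun a ha => Finset.sum_le_sum fun c _ =>
            hcross a (Finset.mem_filter.mp ha).2 c
      _ ≤ ∑ a, ∑ c, (1 + η) * (kpow W m x c * kpow W m a y) :=
          Finset.sum_le_sum_of_subset_of_nonneg (Finset.filter_subset _ _) fun a _ _ =>
            Finset.sum_nonneg fun c _ =>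
              mul_nonneg (by linarith) (mul_nonneg (hnn _ _) (hnn _ _))
      _ = (1 + η) * ((∑ c, kpow W m x c) * ∑ c, kpow W m y c) := by
          rw [Finset.sum_mul_sum, Finset.mul_sum, Finset.sum_comm]
          refine Finset.sum_congr rfl fun a _ => ?_
          rw [Finset.mul_sum]
          refine Finset.sum_congr rfl fun c _ => ?_
          rw [kpow_symm hs m c y]

end Vale.Agent.P050.Opt
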