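import Vale.Agent.P050.O.H322.PosRows
import Vale.Agent.P050.O.H774.BuiltGraph

set_option linter.all false

/-!
Targets close from above to the kernel of rank one with the same degrees: zero rows, bipartite
targets, graphs.
-/

open Finset

namespace Vale.Agent.P050.Opt

open Vale.Agent.P050 Vale.Agent.P050.Dense

/-- the inequality for the graph `H` and all finite kernels with positive rows which are close
from above to the kernel of rank one with the same degrees -/
def CLIneq (D : ℕ) {V : Type} [Fintype V] [DecidableEq V] (H : SimpleGraph V)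
    [DecidableRel H.Adj] : Prop :=
  ∀ (X : Type) [Fintype X] [DecidableEq X] [Nonempty X] (η : ℝ), 0 ≤ η →
    10 ^ 13 * (D:ℝ) * η ≤ 1 → ∀ (W : X → X → ℝ) (hs : ∀ x y, W x y = W y x),
    (∀ x y, 0 ≤ W x y) → (∀ x, 0 < ∑ y, W x y) →
    (∀ x y, W x y * (∑ a, ∑ b, W a b) ≤ (1 + η) * ((∑ b, W x b) * ∑ b, W y b)) →
    pden W ^ H.edgeFinset.card ≤ tden H W hs

/-- zero rows are allowed -/
theorem CLIneq.all {D : ℕ} {V : Type} [Fintype V] [DecidableEq V] {H : SimpleGraph V}
    [DecidableRel H.Adj] (hcl : CLIneq D H) {X : Type} [Fintype X] [Nonempty X] {η : ℝ}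
    (hη0 : 0 ≤ η) (hη : 10 ^ 13 * (D:ℝ) * η ≤ 1) (W : X → X → ℝ) (hs : ∀ x y, W x y = W y x)
    (h0 : ∀ x y, 0 ≤ W x y)
    (hK : ∀ x y, W x y * (∑ a, ∑ b, W a b) ≤ (1 + η) * ((∑ b, W x b) * ∑ b, W y b)) :
    pden W ^ H.edgeFinset.card ≤ tden H W hs := by
  classical
  refine H322.pos_rows H W hs h0 fun hN => ?_
  refine hcl (H322.Ps W) η hη0 hη (H322.rst W) (H322.rst_symm hs) (fun x y => h0 _ _)
    (fun x => ?_) (fun x y => ?_)
  · rw [H322.sum_rst_row hs h0]
    exact x.2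
  · rw [H322.sum_rst_row hs h0, H322.sum_rst_row hs h0, H322.sum_rst hs h0]
    exact hK _ _

namespace H322

theorem row_true {Ω : Type} [Fintype Ω] (side : Ω → Bool) (W : Ω → Ω → ℝ)
    (hW : ∀ x y, side x = side y → W x y = 0) (x : Fb side true) :
    ∑ y : Fb side false, W x.1 y.1 = ∑ y, W x.1 y := by
  rw [sum_split side]
  rw [Finset.sum_eq_zero (s := (univ : Finset (Fb side true))), zero_add]
  intro y _
  exact hW _ _ (by rw [x.2, y.2])

theorem row_false {Ω : Type} [Fintype Ω] (side : Ω → Bool) (W : Ω → Ω → ℝ)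
    (hW : ∀ x y, side x = side y → W x y = 0) (x : Fb side false) :
    ∑ y : Fb side true, W x.1 y.1 = ∑ y, W x.1 y := by
  rw [sum_split side, add_comm]
  rw [Finset.sum_eq_zero (s := (univ : Finset (Fb side false))), zero_add]
  intro y _
  exact hW _ _ (by rw [x.2, y.2])

theorem sum_side_false {Ω : Type} [Fintype Ω] (side : Ω → Bool) (W : Ω → Ω → ℝ)
    (hs : ∀ x y, W x y = W y x) (hW : ∀ x y, side x = side y → W x y = 0) :
    ∑ x, ∑ y, W x y = 2 * ∑ x : Fb side false, ∑ y, W x.1 y := by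
  have h1 := sum_sides side W hs hW
  rw [h1]
  congr 1
  rw [Finset.sum_comm]
  refine Finset.sum_congr rfl fun y _ => ?_
  rw [← row_false side W hW y]
  exact Finset.sum_congr rfl fun x _ => hs _ _

/-- the total of the tensor square -/
theorem tot_sqK {Ω : Type} [Fintype Ω] (side : Ω → Bool) (W : Ω → Ω → ℝ)
    (hs : ∀ x y, W x y = W y x) (hW : ∀ x y, side x = side y → W x y = 0) :
    ∑ p, ∑ p', sqK side W p p' = ((∑ x, ∑ y, W x y) / 2) ^ 2 := by
  classical
  have h1 : ∀ p : Fb side true × Fb side false, ∑ p', sqK side W p p'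
      = (∑ y, W p.1.1 y) * ∑ y, W p.2.1 y := by
    intro p
    rw [sum_sqK side W hs, row_true side W hW, row_false side W hW]
  rw [Finset.sum_congr rfl fun p _ => h1 p, Fintype.sum_prod_type]
  simp only
  rw [← Finset.sum_mul_sum]
  have h2 := sum_sides side W hs hW
  have h3 := sum_side_false side W hs hW
  have h4 : ∑ x : Fb side true, ∑ y, W x.1 y = (∑ x, ∑ y, W x y) / 2 := by
    rw [h2]
    rw [Finset.sum_congr rfl fun x _ => (row_true side W hW x).symm]
    ring
  have h5 : ∑ x : Fb side false, ∑ y, W x.1 y = (∑ x, ∑ y, W x y) / 2 := by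
    rw [h3]
    ring
  rw [h4, h5]
  ring

end H322

open H322

/-- **Bipartite targets close from above to the bipartite kernel of rank one with the same
degrees.** -/
theorem CLIneq.bip {D : ℕ} {V : Type} [Fintype V] [DecidableEq V] {H : SimpleGraph V}
    [DecidableRel H.Adj] (hH : H.IsBipartite) (hcl : CLIneq D H) (hD : 1 ≤ D) {X : Type}
    [Fintype X] [Nonempty X] {η : ℝ}
    (hη0 : 0 ≤ η) (hη : 3 * 10 ^ 13 * (D:ℝ) * η ≤ 1) (side : X → Bool)
    (W : X → X → ℝ) (hs : ∀ x y, W x y = W y x)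
    (h0 : ∀ x y, 0 ≤ W x y) (hW : ∀ x y, side x = side y → W x y = 0)
    (hK : ∀ x y, W x y * ((∑ a, ∑ b, W a b) / 2) ≤ (1 + η) * ((∑ b, W x b) * ∑ b, W y b)) :
    pden W ^ H.edgeFinset.card ≤ tden H W hs := by
  classical
  refine H322.pos_rows H W hs h0 fun hN => ?_
  -- the restriction
  set W' := rst W with hW'
  have hs' : ∀ x y, W' x y = W' y x := rst_symm hs
  have h0' : ∀ x y, 0 ≤ W' x y := fun x y => h0 _ _
  let side' : Ps W → Bool := fun x => side x.1
  have hz' : ∀ x y, side' x = side' y → W' x y = 0 := fun x y h => hW _ _ h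
  have hrow : ∀ x, 0 < ∑ y, W' x y := fun x => by
    rw [hW', sum_rst_row hs h0]
    exact x.2
  have hK' : ∀ x y, W' x y * ((∑ a, ∑ b, W' a b) / 2) ≤ (1 + η) * ((∑ b, W' x b) * ∑ b, W' y b) := by
    intro x y
    rw [hW', sum_rst_row hs h0, sum_rst_row hs h0, sum_rst hs h0]
    exact hK _ _
  have hD' : (1:ℝ) ≤ D := by exact_mod_cast hD
  have hη1 : η ≤ 1 := by
    have h1 : 3 * 10 ^ 13 * (1:ℝ) * η ≤ 3 * 10 ^ 13 * (D:ℝ) * η :=
      mul_le_mul_of_nonneg_right (by nlinarith) hη0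
    norm_num at h1 hη
    linarith
  -- both sides are nonempty
  obtain ⟨x₀⟩ := hN
  have hx₀ := hrow x₀
  obtain ⟨y₀, -, hy₀⟩ := Finset.exists_ne_zero_of_sum_ne_zero hx₀.ne'
  have hne : side' x₀ ≠ side' y₀ := fun h => hy₀ (hz' _ _ h)
  have hXY : Nonempty (Fb side' true) ∧ Nonempty (Fb side' false) := by
    rcases h1 : side' x₀ with _ | _
    · have h2 : side' y₀ = true := by
        rcases h3 : side' y₀ with _ | _
        · rw [h1, h3] at hne; exact absurd rfl hne
        · rfl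
      exact ⟨⟨⟨y₀, h2⟩⟩, ⟨⟨x₀, h1⟩⟩⟩
    · have h2 : side' y₀ = false := by
        rcases h3 : side' y₀ with _ | _
        · rfl
        · rw [h1, h3] at hne; exact absurd rfl hne
      exact ⟨⟨⟨x₀, h1⟩⟩, ⟨⟨y₀, h2⟩⟩⟩
  obtain ⟨hX, hY⟩ := hXY
  refine bip_transfer side' H hH W' hs' h0' hz' hX hY ?_
  have hr : ∀ p : Fb side' true × Fb side' false, ∑ p', sqK side' W' p p'
      = (∑ y, W' p.1.1 y) * ∑ y, W' p.2.1 y := by
    intro p
    rw [sum_sqK side' W' hs', row_true side' W' hz', row_false side' W' hz']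
  refine hcl (Fb side' true × Fb side' false) (2 * η + η ^ 2) (by positivity) ?_
    (sqK side' W') (sqK_symm side' W') (fun p p' => mul_nonneg (h0' _ _) (h0' _ _))
    (fun p => ?_) (fun p p' => ?_)
  · have h1 : η ^ 2 ≤ η := by nlinarith
    have h2 : 10 ^ 13 * (D:ℝ) * (2 * η + η ^ 2) ≤ 10 ^ 13 * (D:ℝ) * (3 * η) :=
      mul_le_mul_of_nonneg_left (by linarith) (by positivity)
    refine h2.trans ?_
    linarith
  · rw [hr]
    exact mul_pos (hrow _) (hrow _)
  · rw [hr, hr, tot_sqK side' W' hs' hz']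
    set T := (∑ x, ∑ y, W' x y) / 2 with hT
    have hT0 : 0 ≤ T := by
      rw [hT]
      exact div_nonneg (Finset.sum_nonneg fun x _ => Finset.sum_nonneg fun y _ => h0' _ _)
        (by norm_num)
    have e1 := hK' p.1.1 p'.2.1
    have e2 := hK' p'.1.1 p.2.1
    have e3 : 0 ≤ W' p.1.1 p'.2.1 * T := mul_nonneg (h0' _ _) hT0
    have e4 : 0 ≤ W' p'.1.1 p.2.1 * T := mul_nonneg (h0' _ _) hT0
    calc sqK side' W' p p' * T ^ 2
        = (W' p.1.1 p'.2.1 * T) * (W' p'.1.1 p.2.1 * T) := by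
          unfold sqK
          ring
      _ ≤ ((1 + η) * ((∑ b, W' p.1.1 b) * ∑ b, W' p'.2.1 b))
          * ((1 + η) * ((∑ b, W' p'.1.1 b) * ∑ b, W' p.2.1 b)) :=
          mul_le_mul e1 e2 e4 (e3.trans e1)
      _ = (1 + (2 * η + η ^ 2)) * (((∑ y, W' p.1.1 y) * ∑ y, W' p.2.1 y)
          * ((∑ y, W' p'.1.1 y) * ∑ y, W' p'.2.1 y)) := by ring

/-- **Graphs.** Every edge `xy` of `G` satisfies `2 e(G) ≤ (1 + c / D) d(x) d(y)`. -/
theorem cl_graph_of {V Ω : Type} [Finite V] [Finite Ω] [Nonempty Ω] (H : SimpleGraph V)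
    (G : SimpleGraph Ω) {D : ℕ} (hD : 1 ≤ D)
    (hcl : ∀ [Fintype V] [DecidableEq V] [DecidableRel H.Adj], CLIneq D H)
    (hK : ∀ x y, G.Adj x y → 2 * (Nat.card G.edgeSet : ℝ) ≤ (1 + 1 / (10 ^ 13 * (D:ℝ))) *
      (((G.neighborSet x).ncard : ℝ) * ((G.neighborSet y).ncard : ℝ))) :
    edgeDensity G ^ Nat.card H.edgeSet ≤ homDensity H G := by
  classical
  have hfV := Fintype.ofFinite V
  have hfΩ := Fintype.ofFinite Ω
  have hD' : (1:ℝ) ≤ D := by exact_mod_cast hD
  rw [← tden_adjK, ← pden_adjK, Nat.card_eq_fintype_card, ← SimpleGraph.edgeFinset_card]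
  refine CLIneq.all hcl (η := 1 / (10 ^ 13 * (D:ℝ))) (by positivity)
    (le_of_eq (mul_one_div_cancel (by positivity))) (adjK G) (adjK_symm G) (fun x y => ?_)
    (fun x y => ?_)
  · unfold adjK; split_ifs <;> norm_num
  · rw [H774.sum_adjK_b, H774.sum_adjK_b, sum_adjK]
    by_cases h : G.Adj x y
    · have h1 : adjK G x y = 1 := by unfold adjK; rw [if_pos h]
      rw [h1, one_mul]
      exact hK x y h
    · have h1 : adjK G x y = 0 := by unfold adjK; rw [if_neg h]
      rw [h1, zero_mul]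
      positivity

/-- **Bipartite graphs.** `G` is bipartite and every edge `xy` of `G` satisfies
`e(G) ≤ (1 + c / D) d(x) d(y)`. -/
theorem cl_bip_graph_of {V Ω : Type} [Finite V] [Finite Ω] [Nonempty Ω] (H : SimpleGraph V)
    (G : SimpleGraph Ω) (hH : H.IsBipartite) {D : ℕ} (hD : 1 ≤ D)
    (hcl : ∀ [Fintype V] [DecidableEq V] [DecidableRel H.Adj], CLIneq D H)
    (hG : G.IsBipartite)
    (hK : ∀ x y, G.Adj x y → (Nat.card G.edgeSet : ℝ) ≤ (1 + 1 / (3 * 10 ^ 13 * (D:ℝ))) *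
      (((G.neighborSet x).ncard : ℝ) * ((G.neighborSet y).ncard : ℝ))) :
    edgeDensity G ^ Nat.card H.edgeSet ≤ homDensity H G := by
  classical
  have hfV := Fintype.ofFinite V
  have hfΩ := Fintype.ofFinite Ω
  have hD' : (1:ℝ) ≤ D := by exact_mod_cast hD
  obtain ⟨c⟩ := hG
  let side : Ω → Bool := fun a => decide (c a = 0)
  have hW : ∀ x y, side x = side y → adjK G x y = 0 := by
    intro x y hxy
    unfold adjK
    rw [if_neg]
    intro hadj
    apply c.valid hadj
    have h4 : (c x = 0) ↔ (c y = 0) := by simpa [side] using hxy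
    by_cases h5 : c x = 0
    · rw [h5, h4.1 h5]
    · have h6 : c y ≠ 0 := fun h7 => h5 (h4.2 h7)
      omega
  rw [← tden_adjK, ← pden_adjK, Nat.card_eq_fintype_card, ← SimpleGraph.edgeFinset_card]
  refine CLIneq.bip hH hcl hD (η := 1 / (3 * 10 ^ 13 * (D:ℝ))) (by positivity)
    (le_of_eq (mul_one_div_cancel (by positivity))) side (adjK G) (adjK_symm G) (fun x y => ?_)
    hW (fun x y => ?_)
  · unfold adjK; split_ifs <;> norm_num
  · rw [H774.sum_adjK_b, H774.sum_adjK_b, sum_adjK]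
    by_cases h : G.Adj x y
    · have h1 : adjK G x y = 1 := by unfold adjK; rw [if_pos h]
      rw [h1, one_mul, mul_div_cancel_left₀ _ (by norm_num : (2:ℝ) ≠ 0)]
      exact hK x y h
    · have h1 : adjK G x y = 0 := by unfold adjK; rw [if_neg h]
      rw [h1, zero_mul]
      positivity

end Vale.Agent.P050.Opt
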