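import Vale.Agent.P050.O.H322.Subdiv

set_option linter.all false

/-!
The number of edges of a subdivision.
-/

open Finset

namespace Vale.Agent.P050.Opt.H322

open Vale.Agent.P050 Vale.Agent.P050.Dense Vale.Agent.P050.Opt

theorem subdiv_card {V : Type} [Finite V] (F : SimpleGraph V) {ℓ : ℕ} (hℓ : 1 ≤ ℓ) :
    Nat.card (subdiv ℓ F).edgeSet = ℓ * Nat.card F.edgeSet := by
  classical
  haveI := Fintype.ofFinite V
  haveI : Fintype F.edgeSet := Fintype.ofFinite _
  haveI : Fintype (subdiv ℓ F).edgeSet := Fintype.ofFinite _
  have h := prod_subdiv F hℓ (fun _ => (2:ℝ))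
  simp only [Finset.prod_const, Finset.card_range, Finset.card_univ] at h
  rw [← pow_mul, SimpleGraph.edgeFinset_card] at h
  rw [Nat.card_eq_fintype_card, Nat.card_eq_fintype_card]
  exact pow_right_injective₀ (by norm_num) (by norm_num) h

theorem subdiv_two_card {V : Type} [Finite V] (F : SimpleGraph V) :
    Nat.card (subdiv 2 F).edgeSet = 2 * Nat.card F.edgeSet :=
  subdiv_card F (by norm_num)

theorem subdiv_two_deg {V : Type} [Finite V] {F : SimpleGraph V} {D : ℕ}
    (h : ∀ v, (F.neighborSet v).ncard ≤ D) (x : V ⊕ (F.edgeSet × Fin (2 - 1))) :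
    ((subdiv 2 F).neighborSet x).ncard ≤ D + 2 := by
  classical
  rcases x with v | ⟨e, i⟩
  · -- old vertex: the neighbours are the middle vertices of the incident edges
    have h1 : (subdiv 2 F).neighborSet (Sum.inl v) ⊆
        (fun u : V => if hu : F.Adj v u then
          (Sum.inr (⟨s(v, u), hu⟩, ⟨0, by norm_num⟩) : V ⊕ (F.edgeSet × Fin (2 - 1)))
          else Sum.inl v) '' F.neighborSet v := by
      intro y hy
      rw [SimpleGraph.mem_neighborSet, subdiv, SimpleGraph.fromRel_adj] at hy
      have key : ∀ (e : F.edgeSet), v = (Quot.out e.1).1 ∨ v = (Quot.out e.1).2 →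
          y = node F 2 e 1 → y ∈ (fun u : V => if hu : F.Adj v u then
          (Sum.inr (⟨s(v, u), hu⟩, ⟨0, by norm_num⟩) : V ⊕ (F.edgeSet × Fin (2 - 1)))
          else Sum.inl v) '' F.neighborSet v := by
        intro e hv hy1
        have h3 := out_adj F e
        have h4 := out_eq F e
        rcases hv with hv | hv
        · refine ⟨(Quot.out e.1).2, by rw [hv]; exact h3, ?_⟩
          have h5 : F.Adj v (Quot.out e.1).2 := by rw [hv]; exact h3
          simp only [dif_pos h5]
          rw [hy1, node_mid F e (by norm_num) (by norm_num)]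
          congr 2
          apply Subtype.ext
          show s(v, (Quot.out e.1).2) = e.1
          rw [← h4, hv]
          simp [h4]
        · refine ⟨(Quot.out e.1).1, by rw [hv]; exact h3.symm, ?_⟩
          have h5 : F.Adj v (Quot.out e.1).1 := by rw [hv]; exact h3.symm
          simp only [dif_pos h5]
          rw [hy1, node_mid F e (by norm_num) (by norm_num)]
          congr 2
          apply Subtype.ext
          show s(v, (Quot.out e.1).1) = e.1
          rw [hv, Sym2.eq_swap, h4]
      rcases hy.2 with ⟨e, i, hi, h3, h4⟩ | ⟨e, i, hi, h3, h4⟩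
      · rcases (by omega : i = 0 ∨ i = 1) with rfl | rfl
        · rw [node_zero] at h3
          exact key e (Or.inl (Sum.inl.inj h3)) h4
        · rw [node_mid F e (by norm_num) (by norm_num)] at h3
          exact absurd h3 (by simp)
      · rcases (by omega : i = 0 ∨ i = 1) with rfl | rfl
        · rw [node_mid F e (by norm_num) (by norm_num)] at h4
          exact absurd h4 (by simp)
        · have h5 : node F 2 e (1 + 1) = Sum.inl (Quot.out e.1).2 := node_last F (by norm_num) e
          rw [h5] at h4
          exact key e (Or.inr (Sum.inl.inj h4)) h3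
    calc ((subdiv 2 F).neighborSet (Sum.inl v)).ncard ≤ _ :=
          Set.ncard_le_ncard h1 (Set.toFinite _)
      _ ≤ (F.neighborSet v).ncard := Set.ncard_image_le (Set.toFinite _)
      _ ≤ D := h v
      _ ≤ D + 2 := by omega
  · have h1 : (subdiv 2 F).neighborSet (Sum.inr (e, i)) ⊆ {node F 2 e 0, node F 2 e 2} := by
      intro y hy
      rw [SimpleGraph.mem_neighborSet, subdiv, SimpleGraph.fromRel_adj] at hy
      rcases hy.2 with ⟨e', j, hj, h3, h4⟩ | ⟨e', j, hj, h3, h4⟩
      · rcases (by omega : j = 0 ∨ j = 1) with rfl | rfl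
        · rw [node_zero] at h3
          exact absurd h3 (by simp)
        · rw [node_mid F e' (by norm_num) (by norm_num)] at h3
          have h5 : e = e' := congrArg Prod.fst (Sum.inr.inj h3)
          subst h5
          right
          exact h4
      · rcases (by omega : j = 0 ∨ j = 1) with rfl | rfl
        · rw [node_mid F e' (by norm_num) (by norm_num)] at h4
          have h5 : e = e' := congrArg Prod.fst (Sum.inr.inj h4)
          subst h5
          left
          exact h3
        · have h5 : node F 2 e' (1 + 1) = Sum.inl (Quot.out e'.1).2 :=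
            node_last F (by norm_num) e'
          rw [h5] at h4
          exact absurd h4 (by simp)
    calc ((subdiv 2 F).neighborSet (Sum.inr (e, i))).ncard ≤ _ :=
          Set.ncard_le_ncard h1 (Set.toFinite _)
      _ ≤ 2 := (Set.ncard_insert_le _ _).trans (by rw [Set.ncard_singleton])
      _ ≤ D + 2 := by omega

end Vale.Agent.P050.Opt.H322
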