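import Vale.Agent.P050.O.H322.Bip3

set_option linter.all false

/-!
Nearly complete bipartite targets: removal of the isolated vertices of `H`, final statement.
-/

open Finset

namespace Vale.Agent.P050.Opt.H322

open Vale.Agent.P050 Vale.Agent.P050.Dense

theorem homDensity_support {V Ω : Type} [Finite V] [Finite Ω] [Nonempty Ω] (H : SimpleGraph V)
    (G : SimpleGraph Ω) : homDensity H G = homDensity (H.induce H.support) G := by
  classical
  have := Fintype.ofFinite V
  have := Fintype.ofFinite Ω
  let E : (H →g G) ≃ ((H.induce H.support) →g G) × (↥(H.supportᶜ : Set V) → Ω) :=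
    { toFun := fun f => (f.comp (SimpleGraph.Embedding.induce H.support).toHom, fun v => f v.1)
      invFun := fun p => ⟨fun v => if h : v ∈ H.support then p.1 ⟨v, h⟩ else p.2 ⟨v, h⟩, by
        intro a b hab
        have ha : a ∈ H.support := H.mem_support.2 ⟨b, hab⟩
        have hb : b ∈ H.support := H.mem_support.2 ⟨a, hab.symm⟩
        rw [dif_pos ha, dif_pos hb]
        exact p.1.map_rel hab⟩
      left_inv := fun f => by
        ext v
        show (if h : v ∈ H.support then f v else f v) = f v
        split_ifs <;> rfl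
      right_inv := fun p => by
        refine Prod.ext ?_ ?_
        · ext v
          show (if h : v.1 ∈ H.support then p.1 ⟨v.1, h⟩ else p.2 ⟨v.1, h⟩) = p.1 v
          rw [dif_pos v.2]
        · funext v
          show (if h : v.1 ∈ H.support then p.1 ⟨v.1, h⟩ else p.2 ⟨v.1, h⟩) = p.2 v
          rw [dif_neg v.2] }
  have h1 : Nat.card (H →g G)
      = Nat.card ((H.induce H.support) →g G) * Nat.card Ω ^ Nat.card ↥(H.supportᶜ : Set V) := by
    rw [Nat.card_congr E, Nat.card_prod, Nat.card_fun]
  have h2 : Nat.card V = Nat.card ↥H.support + Nat.card ↥(H.supportᶜ : Set V) := by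
    rw [Nat.card_coe_set_eq, Nat.card_coe_set_eq, Set.ncard_add_ncard_compl]
  have h3 : (0:ℝ) < (Nat.card Ω : ℝ) := by exact_mod_cast Nat.card_pos
  unfold homDensity
  rw [h1, h2, pow_add]
  push_cast
  rw [mul_div_mul_right _ _ (by positivity)]

theorem card_edgeSet_support {V : Type} [Finite V] (H : SimpleGraph V) :
    Nat.card (H.induce H.support).edgeSet = Nat.card H.edgeSet := by
  classical
  have := Fintype.ofFinite V
  rw [Nat.card_eq_fintype_card, Nat.card_eq_fintype_card, ← SimpleGraph.edgeFinset_card,
    ← SimpleGraph.edgeFinset_card]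
  exact H.card_edgeFinset_induce_support

theorem card_support_le {V : Type} [Finite V] (H : SimpleGraph V) :
    Nat.card ↥H.support ≤ 2 * Nat.card (H.induce H.support).edgeSet := by
  classical
  have := Fintype.ofFinite V
  rw [Nat.card_eq_fintype_card, Nat.card_eq_fintype_card, ← SimpleGraph.edgeFinset_card,
    ← SimpleGraph.sum_degrees_eq_twice_card_edges, ← Finset.card_univ, Finset.card_eq_sum_ones]
  refine Finset.sum_le_sum fun v _ => ?_
  obtain ⟨w, hw⟩ := H.mem_support.1 v.2
  rw [Nat.succ_le_iff, SimpleGraph.degree_pos_iff_exists_adj]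
  exact ⟨⟨w, H.mem_support.2 ⟨v.1, hw.symm⟩⟩, hw⟩

end Vale.Agent.P050.Opt.H322

namespace Vale.Agent.P050.Opt

open Vale.Agent.P050 Vale.Agent.P050.Dense

/-- **Nearly complete bipartite targets**: `G` has no edges inside `S` and none inside the
complement of `S`, and all but a fraction `1 / (2 * 10 ^ 15 * D)` of the pairs between them. -/
theorem dense_bip3 {V Ω : Type} [Finite V] [Finite Ω] [Nonempty Ω] (H : SimpleGraph V)
    (G : SimpleGraph Ω) (hH : H.IsBipartite)
    (D : ℕ) (hdeg : ∀ v, (H.neighborSet v).ncard ≤ D) (S : Set Ω)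
    (hS : ∀ a b, G.Adj a b → (a ∈ S ↔ b ∉ S))
    (he : (1 - 1 / (2 * 10 ^ 15 * (D:ℝ))) * ((S.ncard : ℝ) * (Sᶜ.ncard : ℝ))
      ≤ (Nat.card G.edgeSet : ℝ)) :
    edgeDensity G ^ Nat.card H.edgeSet ≤ homDensity H G := by
  classical
  have hfV := Fintype.ofFinite V
  have hfΩ := Fintype.ofFinite Ω
  rw [H322.homDensity_support H G, ← H322.card_edgeSet_support H]
  have hbip : (H.induce H.support).IsBipartite := by
    obtain ⟨c⟩ := hH
    exact ⟨c.comp (SimpleGraph.Embedding.induce H.support).toHom⟩
  have hdeg' : ∀ v, ((H.induce H.support).neighborSet v).ncard ≤ D := by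
    intro v
    refine le_trans ?_ (hdeg v.1)
    rw [← Set.ncard_image_of_injective _ Subtype.val_injective]
    refine Set.ncard_le_ncard ?_ (Set.toFinite _)
    rintro _ ⟨w, hw, rfl⟩
    exact hw
  by_cases hXY : S.Nonempty ∧ Sᶜ.Nonempty
  · exact H322.bip_graph_aux (H.induce H.support) G hbip (H322.card_support_le H) D hdeg' S hS
      hXY.1 hXY.2 he
  · -- no edges
    have hG : ∀ a b, ¬ G.Adj a b := by
      intro a b hab
      have h1 := hS a b hab
      by_cases ha : a ∈ S
      · exact hXY ⟨⟨a, ha⟩, ⟨b, h1.1 ha⟩⟩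
      · refine hXY ⟨⟨b, ?_⟩, ⟨a, ha⟩⟩
        by_contra hb
        exact ha (h1.2 hb)
    have h1 : edgeDensity G = 0 := by
      have h2 : Nat.card G.edgeSet = 0 := by
        rw [Nat.card_eq_zero]
        left
        refine ⟨fun e => ?_⟩
        obtain ⟨e, he⟩ := e
        induction e using Sym2.ind with
        | _ a b => exact hG a b he
      unfold edgeDensity
      rw [h2]
      norm_num
    rcases Nat.eq_zero_or_pos (Nat.card (H.induce H.support).edgeSet) with hm | hm
    · have h3 := H322.card_support_le H
      rw [hm, Nat.mul_zero, Nat.le_zero, Nat.card_eq_zero] at h3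
      have h4 : IsEmpty ↥H.support := by
        rcases h3 with h | h
        · exact h
        · exact absurd (inferInstance : Finite ↥H.support) (not_finite_iff_infinite.2 h)
      rw [hm, pow_zero]
      unfold homDensity
      rw [Nat.card_eq_zero.2 (Or.inl h4), pow_zero, div_one]
      have h5 : 0 < Nat.card ((H.induce H.support) →g G) := by
        have : Nonempty ((H.induce H.support) →g G) :=
          ⟨⟨fun v => (h4.false v).elim, fun {a} => (h4.false a).elim⟩⟩
        exact Nat.card_pos
      exact_mod_cast h5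
    · rw [h1, zero_pow hm.ne']
      unfold homDensity
      positivity

end Vale.Agent.P050.Opt
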