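import Vale.Agent.P050.O.H322.BipCL
import Vale.Agent.P050.O.H234.RankOne
import Vale.Agent.P050.O.H625.AsmFin
import Vale.Agent.P050.O.H625.AsmMono

set_option linter.all false

/-!
Assembled graphs: targets close from above to the kernel of rank one with the same degrees.
-/

open Finset

namespace Vale.Agent.P050.Opt

open Vale.Agent.P050 Vale.Agent.P050.Dense

theorem clIneq_asm {D : ℕ} (hD : 1 ≤ D) {V : Type} [Fintype V] [DecidableEq V]
    {H : SimpleGraph V} [DecidableRel H.Adj] (hG : Assembled D V H) : CLIneq D H :=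
  fun X _ _ _ η hη0 hη W hs h0 hd hK =>
    H234.rank1_of_ent H hD hη0 hη W hs h0 hd hK
      (fun m hm μ _ U κ η hμ hU => wt_of_ker μ hμ hU)
      (fun m hm μ _ U κ η hμ hU hη hκ => ent_asm hG μ hμ hU hη hκ)

/-- assembled graphs, graphs `G` all of whose edges `xy` satisfy
`2 e(G) ≤ (1 + c / D) d(x) d(y)` -/
theorem asm_cl_graph {V Ω : Type} [Finite V] [Finite Ω] [Nonempty Ω] (H : SimpleGraph V)
    (G : SimpleGraph Ω) (D : ℕ) (hA : Assembled D V H)
    (hK : ∀ x y, G.Adj x y → 2 * (Nat.card G.edgeSet : ℝ) ≤ (1 + 1 / (10 ^ 13 * (D:ℝ))) *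
      (((G.neighborSet x).ncard : ℝ) * ((G.neighborSet y).ncard : ℝ))) :
    edgeDensity G ^ Nat.card H.edgeSet ≤ homDensity H G := by
  rcases Nat.eq_zero_or_pos D with h | hD
  · refine cl_graph_of H G (D := 1) le_rfl
      (fun {_ _ _} => clIneq_asm le_rfl (hA.mono (h ▸ Nat.zero_le 1))) fun x y hxy => ?_
    refine (hK x y hxy).trans (mul_le_mul_of_nonneg_right ?_ (by positivity))
    rw [h]
    norm_num
  · exact cl_graph_of H G hD (fun {_ _ _} => clIneq_asm hD hA) hK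

/-- assembled graphs, bipartite `G` all of whose edges `xy` satisfy
`e(G) ≤ (1 + c / D) d(x) d(y)` -/
theorem asm_cl_bip_graph {V Ω : Type} [Finite V] [Finite Ω] [Nonempty Ω] (H : SimpleGraph V)
    (G : SimpleGraph Ω) (D : ℕ) (hA : Assembled D V H) (hG : G.IsBipartite)
    (hK : ∀ x y, G.Adj x y → (Nat.card G.edgeSet : ℝ) ≤ (1 + 1 / (3 * 10 ^ 13 * (D:ℝ))) *
      (((G.neighborSet x).ncard : ℝ) * ((G.neighborSet y).ncard : ℝ))) :
    edgeDensity G ^ Nat.card H.edgeSet ≤ homDensity H G := by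
  rcases Nat.eq_zero_or_pos D with h | hD
  · refine cl_bip_graph_of H G hA.bip (D := 1) le_rfl
      (fun {_ _ _} => clIneq_asm le_rfl (hA.mono (h ▸ Nat.zero_le 1))) hG fun x y hxy => ?_
    refine (hK x y hxy).trans (mul_le_mul_of_nonneg_right ?_ (by positivity))
    rw [h]
    norm_num
  · exact cl_bip_graph_of H G hA.bip hD (fun {_ _ _} => clIneq_asm hD hA) hG hK

/-- assembled graphs, symmetric kernels between two sides, finite form -/
theorem asm_cl_bip {V X : Type} [Fintype V] [DecidableEq V] [Fintype X] [Nonempty X]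
    (H : SimpleGraph V) [DecidableRel H.Adj] {D : ℕ} (hD : 1 ≤ D) (hA : Assembled D V H)
    {η : ℝ} (hη0 : 0 ≤ η) (hη : 3 * 10 ^ 13 * (D:ℝ) * η ≤ 1) (side : X → Bool)
    (W : X → X → ℝ) (hs : ∀ x y, W x y = W y x)
    (h0 : ∀ x y, 0 ≤ W x y) (hW : ∀ x y, side x = side y → W x y = 0)
    (hK : ∀ x y, W x y * ((∑ a, ∑ b, W a b) / 2) ≤ (1 + η) * ((∑ b, W x b) * ∑ b, W y b)) :
    pden W ^ H.edgeFinset.card ≤ tden H W hs :=
  CLIneq.bip hA.bip (clIneq_asm hD hA) hD hη0 hη side W hs h0 hW hK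

end Vale.Agent.P050.Opt
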