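import Vale.Agent.P050.O.H322.Paths
import Vale.Agent.P050.O.H998.ITle
import Vale.Agent.P050.O.H128.Explore
import Vale.Agent.P050.O.H928.Step

set_option linter.all false

/-!
Dense targets, optimal order: S5a (`stage1`) and S5b (`stage2`).
-/

open MeasureTheory Finset

namespace Vale.Agent.P050.Opt

open Vale.Agent.P050 Vale.Agent.P050.Dense

variable {V : Type*} [Fintype V] [DecidableEq V] {Ω : Type*} [MeasurableSpace Ω]
variable (H : SimpleGraph V) [DecidableRel H.Adj] (o : V → ℕ)
variable (μ : Measure Ω) [IsProbabilityMeasure μ] {U : Sym2 Ω → ℝ} {R : V → Ω → ℝ} {κ η : ℝ}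

namespace H322

lemma ind_Env {Λ : Finset V} {v : V} (hv : v ∉ Λ) : Ind v (Env H U R Λ) := by
  intro x t
  unfold Env
  congr 1
  · refine Finset.prod_congr rfl fun w hw => ?_
    have : w ≠ v := by rintro rfl; exact hv hw
    rw [Function.update_of_ne this]
  · refine Finset.prod_congr rfl fun e he => ?_
    congr 2
    refine Sym2.map_congr fun w hw => ?_
    have : w ≠ v := by
      rintro rfl
      exact hv ((Finset.mem_filter.1 he).2 w hw)
    rw [Function.update_of_ne this]

lemma bm_Env (hU : Good U 1) (hR : ∀ v, BM (R v)) (Λ : Finset V) : BM (Env H U R Λ) := by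
  unfold Env
  refine (BM.finprod Λ fun v _ => (BM.const 1).add ((hR v).comp (measurable_pi_apply v))).mul ?_
  exact BM.finprod _ fun e _ => (BM.const 1).add (hU.bm_edge e)

lemma bm_kept (hU : Good U 1) (X : Finset V) (O : V → Finset V) (Λ : Finset V) :
    BM (fun z : V → Ω => ∏ x ∈ X, ∏ w ∈ O x ∩ Λ, (1 + U s(z x, z w))) :=
  BM.finprod _ fun x _ => BM.finprod _ fun w _ => (BM.const 1).add (bm_U hU x w)

lemma ind_kept {X : Finset V} {O : V → Finset V} {Λ : Finset V} {v : V} (hX : v ∉ X)
    (hΛ : v ∉ Λ) : Ind v (fun z : V → Ω => ∏ x ∈ X, ∏ w ∈ O x ∩ Λ, (1 + U s(z x, z w))) := by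
  intro z t
  refine Finset.prod_congr rfl fun x hx => Finset.prod_congr rfl fun w hw => ?_
  have h1 : x ≠ v := by rintro rfl; exact hX hx
  have h2 : w ≠ v := by rintro rfl; exact hΛ (Finset.mem_inter.1 hw).2
  rw [Function.update_of_ne h1, Function.update_of_ne h2]

lemma ZE_nonneg (hU : Ker μ U κ η) (hR : One μ R) (Λ : Finset V) : 0 ≤ ZE H μ U R Λ :=
  integral_nonneg fun z => H998.Env_nonneg H hU hR Λ z

/-- expansion of the kept edges at an explored leaf -/
theorem kept_expand (ho : Function.Injective o) (hU : Ker μ U κ η) (hR : One μ R)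
    {X Λ : Finset V} {O : V → Finset V} {v p : V} {g : (V → Ω) → ℝ} (hg : BM g) (hgv : Ind v g)
    (hp : p ≠ v) (hv : v ∈ X) (hX : Disjoint X Λ) :
    IT H μ U R (fun z => g z * U s(z p, z v)) X O Λ =
      ∑ w ∈ O v ∩ Λ, IT H μ U R (fun z => g z * U s(z p, z v) * U s(z v, z w)) X
        (Function.update O v ((O v).filter fun w' => o w' < o w)) Λ := by
  have hvΛ : v ∉ Λ := Finset.disjoint_left.1 hX hv
  set E : (V → Ω) → ℝ := fun z => (∏ x ∈ X.erase v, ∏ w ∈ O x ∩ Λ, (1 + U s(z x, z w))) *
    Env H U R Λ z with hE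
  have hEbm : BM E := (bm_kept hU.good _ O Λ).mul (bm_Env H hU.good hR.bm Λ)
  have hEi : Ind v E := by
    intro z t
    have h1 := ind_kept (U := U) (O := O) (Finset.notMem_erase v X) hvΛ z t
    have h2 := ind_Env H (U := U) (R := R) hvΛ z t
    simp only [hE]
    rw [h2]
    congr 1
  have hK : ∀ z, Kp U X O Λ z = (∏ w ∈ O v ∩ Λ, (1 + U s(z v, z w))) *
      ∏ x ∈ X.erase v, ∏ w ∈ O x ∩ Λ, (1 + U s(z x, z w)) := by
    intro z
    unfold Kp
    rw [← Finset.mul_prod_erase X _ hv]
  have hK2 : ∀ w z, Kp U X (Function.update O v ((O v).filter fun w' => o w' < o w)) Λ z =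
      (∏ w' ∈ (O v ∩ Λ).filter (fun w' => o w' < o w), (1 + U s(z v, z w'))) *
      ∏ x ∈ X.erase v, ∏ w ∈ O x ∩ Λ, (1 + U s(z x, z w)) := by
    intro w z
    unfold Kp
    rw [← Finset.mul_prod_erase X _ hv, Function.update_self]
    congr 1
    · refine Finset.prod_congr ?_ fun _ _ => rfl
      ext x
      simp only [Finset.mem_inter, Finset.mem_filter]
      tauto
    · refine Finset.prod_congr rfl fun x hx => ?_
      rw [Function.update_of_ne (Finset.ne_of_mem_erase hx)]
  have hpt : ∀ z, g z * U s(z p, z v) * Kp U X O Λ z * Env H U R Λ z =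
      U s(z p, z v) * (g z * E z) + ∑ w ∈ O v ∩ Λ, g z * U s(z p, z v) * U s(z v, z w) *
        Kp U X (Function.update O v ((O v).filter fun w' => o w' < o w)) Λ z *
        Env H U R Λ z := by
    intro z
    have h1 := prod_add_ord o ho (O v ∩ Λ) (fun _ => (1:ℝ)) (fun w => U s(z v, z w))
    simp only [Finset.prod_const_one, mul_one] at h1
    rw [hK z, h1]
    simp only [hK2]
    simp only [hE]
    rw [add_mul, mul_add, add_mul, one_mul, Finset.sum_mul, Finset.mul_sum, Finset.sum_mul]
    congr 1
    · ring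
    · refine Finset.sum_congr rfl fun w _ => ?_
      ring
  have hbmw : ∀ w, BM (fun z => g z * U s(z p, z v) * U s(z v, z w) *
        Kp U X (Function.update O v ((O v).filter fun w' => o w' < o w)) Λ z *
        Env H U R Λ z) := fun w =>
    (((hg.mul (bm_U hU.good p v)).mul (bm_U hU.good v w)).mul
      (bm_kept hU.good _ _ _)).mul (bm_Env H hU.good hR.bm Λ)
  unfold IT
  simp only [hpt]
  rw [integral_add (((bm_U hU.good p v).mul (hg.mul hEbm)).integrable _)
    ((BM.finsum _ fun w _ => hbmw w).integrable _)]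
  rw [int_edge_zero μ hU hp (hg.mul hEbm) (by
    intro z t
    show g (Function.update z v t) * E (Function.update z v t) = g z * E z
    rw [hgv, hEi]), zero_add]
  rw [integral_finset_sum _ fun w _ => (hbmw w).integrable _]

/-- the bound of the final state of a shape -/
theorem final_le {D : ℕ} (hD : ∀ v, H.degree v ≤ D) (hU : Ker μ U κ η) (hη : (1 + η) ^ D ≤ 2)
    (hR : One μ R) {T : V × List V × Option (Option V) × Finset V × Bool → ℝ}
    (hT : TB H μ U R T) {a : V} {L : List V} {B : Option (Option V)} {S : Finset V} {b : Bool}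
    (hs : Shape H a L B S b) {X : Finset V} (hXe : X = vs a L) {O : V → Finset V}
    (hO : ∀ x ∈ X, O x ⊆ H.neighborFinset x) {Λ : Finset V} (hX : Disjoint X Λ)
    {G : (V → Ω) → ℝ} (hG : ∀ z, G z = psi U R a L B S b z) :
    |IT H μ U R G X O Λ| ≤ 2 ^ (L.length + 1) * T (a, L, B, S, b) * ZE H μ U R Λ := by
  subst hXe
  have hGe : G = psi U R a L B S b := funext hG
  subst hGe
  rw [← vs_card hs.nd]
  have hpvt : pv a L.tail ⊆ vs a L := by
    cases L with
    | nil => simp [pv]
    | cons w L =>
      refine (pv_subset_vs a L).trans ?_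
      intro x hx
      simp only [vs, Finset.mem_insert, List.mem_toFinset, List.mem_cons] at hx ⊢
      tauto
  have hcB : ∀ c, B = some (some c) → c ∈ vs a L := by
    intro c hc
    have h1 := (hs.aB c hc).1
    have h2 : c ∈ L := List.mem_of_mem_tail (List.mem_of_mem_dropLast h1)
    simp [vs, h2]
  refine IT_le H μ hD hU hη hR ?_ ?_ hO hX ?_
  · exact ((bm_pU hU.good a L).mul (bm_bf hU.good hR.bm a B)).mul
      (bm_cl hU.good hR.bm (hd a L) S b)
  · intro u hu x t
    unfold psi
    have h1 : u ≠ a := by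
      rintro rfl
      exact hu (by simp [vs])
    have h2 : B ≠ some (some u) := fun h => hu (hcB u h)
    have h3 : u ≠ hd a L := by
      rintro rfl
      exact hu (hd_mem_vs a L)
    have h4 : u ∉ S := fun h => hu (hpvt (hs.sS h))
    rw [ind_pU hu x t, ind_bf h1 h2 x t, ind_cl h3 h4 x t]
  · intro h hh h1
    exact hT (a, L, B, S, b) hs h hh h1

end H322

open H322

/-- S5a: terms with a mark at `v`, or at least two closings: shapes `(v, L)` -/
theorem stage1 {D : ℕ} (hD : ∀ v, H.degree v ≤ D) (hU : Ker μ U κ η) (hη : (1 + η) ^ D ≤ 2)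
    (hR : One μ R) (hκ : 24 * D * κ ≤ 1)
    {T : V × List V × Option (Option V) × Finset V × Bool → ℝ} (hT0 : ∀ q, 0 ≤ T q)
    (hT : TB H μ U R T) {v a : V} {Λ : Finset V} (hv : v ∉ Λ) (ha : a ∈ Λ) (hva : H.Adj v a)
    {j : ℕ} {L : List V} (hL : L ∈ Wk H a (Λ.erase a) j) {q : Finset V × Bool}
    (hq : q ∈ Cq ({v} ∪ pv a L) (kO H o (O1 H o v a) a L) (hd a L)) {B : Option (Option V)}
    (hB : B = some none ∨ (B = none ∧ 2 ≤ q.1.card + (if q.2 then 1 else 0))) :
    Shape H v (L ++ [a]) B q.1 q.2 ∧
    |IT H μ U R (fun z => bf U R v B z * U s(z v, z a) * pU U a L z * cl U R (hd a L) q.1 q.2 z)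
      ({v} ∪ vs a L) (Function.update (kO H o (O1 H o v a) a L) (hd a L)
        (H.neighborFinset (hd a L))) (Λ.erase a \ vs a L)| ≤
      2 ^ (j + 2) * T (v, L ++ [a], B, q.1, q.2) * ZE H μ U R (insert v Λ \ vs v (L ++ [a])) := by
  have hvs : vs v ([] : List V) = {v} := by simp [vs]
  have hav : a ≠ v := hva.ne'
  have hO1 : ∀ x ∈ vs v ([] : List V), O1 H o v a x ⊆ H.neighborFinset x := by
    intro x _
    unfold O1
    by_cases h : x = v
    · subst h
      rw [Function.update_self]
      exact Finset.filter_subset _ _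
    · rw [Function.update_of_ne h]
      exact Finset.empty_subset _
  have hwO : a ∉ O1 H o v a (hd v ([] : List V)) := by
    show a ∉ O1 H o v a v
    unfold O1
    rw [Function.update_self, Finset.mem_filter]
    exact fun h => lt_irrefl _ h.2
  have hq' : q ∈ Cq (vs v ([] : List V) ∪ pv a L) (kO H o (O1 H o v a) a L) (hd a L) := by
    rw [hvs]; exact hq
  have hs : Shape H v (L ++ a :: []) B q.1 q.2 := by
    refine mkShape H o (a₀ := v) (L₀ := []) (w := a) (by simp) (by simp [Cons])
      (by rw [hvs]; simpa using hav) (show H.Adj (hd v ([] : List V)) a from hva) hL ?_ hO1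
      hwO hq' ?_ ?_
    · rw [hvs, Finset.disjoint_singleton_left]
      exact fun h => hv (Finset.mem_of_mem_erase h)
    · intro c hc
      rcases hB with h | ⟨h, -⟩ <;> rw [h] at hc <;> simp at hc
    · have h1 := Cq_one hq
      rcases hB with h | ⟨h, h2⟩
      · rw [h]
        simp only [reduceCtorEq, if_false]
        omega
      · rw [h, if_pos rfl]
        omega
  refine ⟨hs, ?_⟩
  obtain ⟨h1, h2, h3, h4⟩ := Wk_spec H hL
  have e1 : insert v Λ \ vs v (L ++ a :: []) = Λ.erase a \ vs a L := by
    rw [vs_append, hvs]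
    ext x
    simp only [Finset.mem_sdiff, Finset.mem_insert, Finset.mem_union, Finset.mem_singleton,
      Finset.mem_erase, not_or]
    constructor
    · rintro ⟨h5 | h5, h6, h7⟩
      · exact absurd h5 h7
      · refine ⟨⟨?_, h5⟩, h6⟩
        rintro rfl
        exact h6 (by simp [vs])
    · rintro ⟨⟨h5, h6⟩, h7⟩
      refine ⟨Or.inr h6, h7, ?_⟩
      rintro rfl
      exact hv h6
  have hlen : (L ++ a :: []).length + 1 = j + 2 := by simp [h1]
  have hX : ({v} : Finset V) ∪ vs a L = vs v (L ++ a :: []) := by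
    rw [vs_append, hvs, Finset.union_comm]
  have key := final_le H μ hD hU hη hR hT hs hX (O := Function.update
    (kO H o (O1 H o v a) a L) (hd a L) (H.neighborFinset (hd a L)))
    (Λ := Λ.erase a \ vs a L)
    (G := fun z => bf U R v B z * U s(z v, z a) * pU U a L z * cl U R (hd a L) q.1 q.2 z) ?_ ?_ ?_
  · rw [hlen, ← e1] at key
    rw [← e1]
    exact key
  · intro x hx
    by_cases h : x = hd a L
    · subst h
      rw [Function.update_self]
    · rw [Function.update_of_ne h]
      apply kO_subset H o hO1 a L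
      rw [hvs]
      rw [Finset.mem_union] at hx ⊢
      rcases hx with hx | hx
      · exact Or.inl hx
      · rw [vs_eq, Finset.mem_insert] at hx
        exact Or.inr (hx.resolve_left h)
  · rw [Finset.disjoint_left]
    intro x hx hx'
    rw [Finset.mem_sdiff, Finset.mem_erase] at hx'
    rw [Finset.mem_union, Finset.mem_singleton] at hx
    rcases hx with rfl | hx
    · exact hv hx'.1.2
    · exact hx'.2 hx
  · intro z
    unfold psi
    rw [pU_append, hd_append]
    simp only [pU, hd]
    ring

open scoped Classical in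
/-- S5b: exactly one closing which is not a chord to `v`: explore again from `v`.
`a₀` = last vertex, `L₀` = the reversed path, which ends at `v` -/
theorem stage2 {D : ℕ} (ho : Function.Injective o) (hD : ∀ v, H.degree v ≤ D) (hU : Ker μ U κ η)
    (hη : (1 + η) ^ D ≤ 2) (hR : One μ R) (hκ : 24 * D * κ ≤ 1)
    {T : V × List V × Option (Option V) × Finset V × Bool → ℝ} (hT0 : ∀ q, 0 ≤ T q)
    (hT : TB H μ U R T) {a₀ v : V} {L₀ : List V} {Λ : Finset V} {B : Option (Option V)}
    {O : V → Finset V} (hnd : (L₀ ++ [a₀]).Nodup) (hpath : ∀ x y, Cons a₀ L₀ x y → H.Adj x y)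
    (hne : L₀ ≠ []) (hv : hd a₀ L₀ = v) (hX : Disjoint (vs a₀ L₀) Λ)
    (hB : B = some none ∨ ∃ c, B = some (some c) ∧ c ∈ L₀.tail.dropLast ∧ H.Adj a₀ c)
    (hO : ∀ x ∈ vs a₀ L₀, O x ⊆ H.neighborFinset x) :
    |IT H μ U R (fun z => pU U a₀ L₀ z * bf U R a₀ B z) (vs a₀ L₀) O Λ| ≤
      ∑ j ∈ range (Fintype.card V), ∑ a ∈ Λ.filter (fun a => H.Adj v a),
        ∑ L ∈ Wk H a (Λ.erase a) j, ∑ q ∈ ((univ : Finset (Finset V × Bool)).filter fun q =>
          Shape H a₀ (L ++ a :: L₀) B q.1 q.2),
          2 ^ (j + 2 + L₀.length) * T (a₀, L ++ a :: L₀, B, q.1, q.2) *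
            ZE H μ U R (Λ \ vs a L) := by
  obtain ⟨L₁, rfl⟩ : ∃ L₁, L₀ = v :: L₁ := by
    cases L₀ with
    | nil => exact absurd rfl hne
    | cons w L => exact ⟨L, by rw [← hv]; rfl⟩
  have hvX : v ∈ vs a₀ (v :: L₁) := by simp [vs]
  have hndv : v ∉ vs a₀ L₁ := by
    rw [List.cons_append, List.nodup_cons] at hnd
    intro h
    apply hnd.1
    simp only [vs, Finset.mem_insert, List.mem_toFinset] at h
    simp only [List.mem_append, List.mem_singleton]
    tauto
  have hva₀ : v ≠ a₀ := by
    rintro rfl
    exact hndv (by simp [vs])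
  have hpv : hd a₀ L₁ ≠ v := fun h => hndv (h ▸ hd_mem_vs a₀ L₁)
  have hBv : B ≠ some (some v) := by
    intro h
    rcases hB with h' | ⟨c, h', hc, -⟩
    · rw [h] at h'; simp at h'
    · rw [h] at h'
      have : c = v := by simpa using h'.symm
      subst this
      rw [List.tail_cons] at hc
      exact hndv (by simp [vs, List.mem_of_mem_dropLast hc])
  have hcX : ∀ c, B = some (some c) → c ∈ vs a₀ (v :: L₁) := by
    intro c hc
    rcases hB with h' | ⟨c', h', hc', -⟩
    · rw [hc] at h'; simp at h'
    · rw [hc] at h'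
      have : c = c' := by simpa using h'
      subst this
      rw [List.tail_cons] at hc'
      simp [vs, List.mem_of_mem_dropLast hc']
  -- expansion at `v`
  set g : (V → Ω) → ℝ := fun z => pU U a₀ L₁ z * bf U R a₀ B z with hg
  have hgbm : BM g := (bm_pU hU.good a₀ L₁).mul (bm_bf hU.good hR.bm a₀ B)
  have hgv : Ind v g := by
    intro x t
    simp only [hg]
    rw [ind_pU hndv x t, ind_bf hva₀ hBv x t]
  have e0 : (fun z => pU U a₀ (v :: L₁) z * bf U R a₀ B z) =
      fun z => g z * U s(z (hd a₀ L₁), z v) := by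
    funext z
    simp only [hg, pU]
    ring
  rw [e0, kept_expand H o μ ho hU hR hgbm hgv hpv hvX hX]
  -- one term
  have hterm : ∀ w ∈ O v ∩ Λ,
      |IT H μ U R (fun z => g z * U s(z (hd a₀ L₁), z v) * U s(z v, z w)) (vs a₀ (v :: L₁))
        (Function.update O v ((O v).filter fun w' => o w' < o w)) Λ| ≤
      ∑ j ∈ range (Fintype.card V), ∑ L ∈ Wk H w (Λ.erase w) j,
        ∑ q ∈ ((univ : Finset (Finset V × Bool)).filter fun q =>
          Shape H a₀ (L ++ w :: v :: L₁) B q.1 q.2),
          2 ^ (j + 2 + (v :: L₁).length) * T (a₀, L ++ w :: v :: L₁, B, q.1, q.2) *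
            ZE H μ U R (Λ \ vs w L) := by
    intro w hw
    obtain ⟨hwO, hwΛ⟩ := Finset.mem_inter.1 hw
    set Ow : V → Finset V := Function.update O v ((O v).filter fun w' => o w' < o w) with hOw
    have hwX : w ∉ vs a₀ (v :: L₁) := fun h => Finset.disjoint_left.1 hX h hwΛ
    have hadj : H.Adj v w := by
      have := hO v hvX hwO
      rwa [SimpleGraph.mem_neighborFinset] at this
    have hOwN : ∀ x ∈ vs a₀ (v :: L₁), Ow x ⊆ H.neighborFinset x := by
      intro x hx
      rw [hOw]
      by_cases h : x = v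
      · subst h
        rw [Function.update_self]
        exact (Finset.filter_subset _ _).trans (hO x hx)
      · rw [Function.update_of_ne h]
        exact hO x hx
    have hwOw : w ∉ Ow (hd a₀ (v :: L₁)) := by
      show w ∉ Ow v
      rw [hOw, Function.update_self, Finset.mem_filter]
      exact fun h => lt_irrefl _ h.2
    have hdis : Disjoint (vs a₀ (v :: L₁)) (Λ.erase w) :=
      hX.mono_right (Finset.erase_subset _ _)
    have hins : insert w (Λ.erase w) = Λ := Finset.insert_erase hwΛ
    have hex := H128.explore_of H o μ (fun _ _ _ _ _ _ hg' h1 h2 h3 h4 h5 h6 =>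
      step H o μ ho hU hR hg' h1 h2 h3 h4 h5 h6) hU (X := vs a₀ (v :: L₁)) (Λ := Λ.erase w) (O := Ow)
      (s := v) (a := w) (g := fun z => g z * U s(z (hd a₀ L₁), z v))
      (hgbm.mul (bm_U hU.good _ _)) (by
        intro x hx y t
        have h1 : pU U a₀ (v :: L₁) (Function.update y x t) = pU U a₀ (v :: L₁) y :=
          ind_pU hx y t
        have h2 : bf U R a₀ B (Function.update y x t) = bf U R a₀ B y := by
          apply ind_bf _ (fun h => hx (hcX x h)) y t
          rintro rfl
          exact hx (by simp [vs])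
        have h3 := congrFun e0 (Function.update y x t)
        have h4 := congrFun e0 y
        show g (Function.update y x t) * U s(Function.update y x t (hd a₀ L₁),
          Function.update y x t v) = g y * U s(y (hd a₀ L₁), y v)
        rw [← h3, ← h4, h1, h2]) hvX hwX (Finset.notMem_erase _ _) hdis
    rw [hins] at hex
    rw [hex]
    refine (Finset.abs_sum_le_sum_abs _ _).trans (Finset.sum_le_sum fun j _ => ?_)
    refine (Finset.abs_sum_le_sum_abs _ _).trans (Finset.sum_le_sum fun L hL => ?_)
    refine (Finset.abs_sum_le_sum_abs _ _).trans ?_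
    obtain ⟨h1, h2, h3, h4⟩ := Wk_spec H hL
    have e1 : Λ \ vs w L = Λ.erase w \ vs w L := by
      ext x
      simp only [Finset.mem_sdiff, Finset.mem_erase]
      constructor
      · rintro ⟨h5, h6⟩
        refine ⟨⟨?_, h5⟩, h6⟩
        rintro rfl
        exact h6 (by simp [vs])
      · rintro ⟨⟨-, h5⟩, h6⟩
        exact ⟨h5, h6⟩
    have hsh : ∀ q ∈ Cq (vs a₀ (v :: L₁) ∪ pv w L) (kO H o Ow w L) (hd w L),
        Shape H a₀ (L ++ w :: v :: L₁) B q.1 q.2 := by
      intro q hq
      refine mkShape H o hnd hpath hwX hadj hL hdis hOwN hwOw hq ?_ ?_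
      · intro c hc
        rcases hB with h' | ⟨c', h', hc', hadj'⟩
        · rw [hc] at h'; simp at h'
        · rw [hc] at h'
          have : c = c' := by simpa using h'
          subst this
          refine ⟨?_, hadj'⟩
          rw [List.tail_cons] at hc'
          cases L with
          | nil =>
            rw [List.nil_append, List.tail_cons]
            have hne1 : L₁ ≠ [] := by
              rintro rfl
              simp at hc'
            rw [List.dropLast_cons_of_ne_nil hne1]
            exact List.mem_cons_of_mem _ hc'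
          | cons x L' =>
            have hne1 : L₁ ≠ [] := by
              rintro rfl
              simp at hc'
            rw [List.cons_append, List.tail_cons,
              List.dropLast_append_of_ne_nil (by simp),
              List.dropLast_cons_of_ne_nil (by simp), List.dropLast_cons_of_ne_nil hne1]
            simp [hc']
      · have h5 := Cq_one hq
        have h6 : B ≠ none := by
          rcases hB with h' | ⟨c', h', -⟩ <;> rw [h'] <;> simp
        rw [if_neg h6]
        omega
    have hle : ∀ q ∈ Cq (vs a₀ (v :: L₁) ∪ pv w L) (kO H o Ow w L) (hd w L),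
        |IT H μ U R (fun z => g z * U s(z (hd a₀ L₁), z v) * U s(z v, z w) * pU U w L z *
          cl U R (hd w L) q.1 q.2 z) (vs a₀ (v :: L₁) ∪ vs w L)
          (Function.update (kO H o Ow w L) (hd w L) (H.neighborFinset (hd w L)))
          (Λ.erase w \ vs w L)| ≤
        2 ^ (j + 2 + (v :: L₁).length) * T (a₀, L ++ w :: v :: L₁, B, q.1, q.2) *
          ZE H μ U R (Λ \ vs w L) := by
      intro q hq
      have hs := hsh q hq
      have hlen : (L ++ w :: v :: L₁).length + 1 = j + 2 + (v :: L₁).length := by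
        simp [h1]; omega
      have hXe : vs a₀ (v :: L₁) ∪ vs w L = vs a₀ (L ++ w :: v :: L₁) := by
        rw [vs_append, Finset.union_comm]
      rw [e1, ← hlen]
      refine final_le H μ hD hU hη hR hT hs hXe ?_ ?_ ?_
      · intro x hx
        by_cases h : x = hd w L
        · subst h
          rw [Function.update_self]
        · rw [Function.update_of_ne h]
          apply kO_subset H o hOwN w L
          rw [Finset.mem_union] at hx ⊢
          rcases hx with hx | hx
          · exact Or.inl hx
          · rw [vs_eq, Finset.mem_insert] at hx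
            exact Or.inr (hx.resolve_left h)
      · rw [Finset.disjoint_union_left]
        constructor
        · exact hdis.mono_right Finset.sdiff_subset
        · exact Finset.disjoint_sdiff
      · intro z
        unfold psi
        rw [pU_append, hd_append]
        have h5 := congrFun e0 z
        rw [← h5]
        simp only [hd]
        ring
    refine (Finset.sum_le_sum hle).trans ?_
    refine Finset.sum_le_sum_of_subset_of_nonneg ?_ ?_
    · intro q hq
      rw [Finset.mem_filter]
      exact ⟨Finset.mem_univ _, hsh q hq⟩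
    · intro q _ _
      have := ZE_nonneg H μ hU hR (Λ \ vs w L)
      have h5 := hT0 (a₀, L ++ w :: v :: L₁, B, q.1, q.2)
      positivity
  refine (Finset.abs_sum_le_sum_abs _ _).trans ((Finset.sum_le_sum hterm).trans ?_)
  rw [Finset.sum_comm]
  refine Finset.sum_le_sum fun j _ => ?_
  refine Finset.sum_le_sum_of_subset_of_nonneg ?_ ?_
  · intro w hw
    obtain ⟨hwO, hwΛ⟩ := Finset.mem_inter.1 hw
    rw [Finset.mem_filter]
    refine ⟨hwΛ, ?_⟩
    have := hO v hvX hwO
    rwa [SimpleGraph.mem_neighborFinset] at this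
  · intro w _ _
    refine Finset.sum_nonneg fun L _ => Finset.sum_nonneg fun q _ => ?_
    have := ZE_nonneg H μ hU hR (Λ \ vs w L)
    have h5 := hT0 (a₀, L ++ w :: v :: L₁, B, q.1, q.2)
    positivity

end Vale.Agent.P050.Opt
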