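import Vale.Agent.P050.O.H322.Bip2
import Vale.Agent.P050.O.H904.Top3

set_option linter.all false

/-!
Nearly complete bipartite targets: the product of the two orientations is a homomorphism sum
into the tensor square.
-/

open Finset

namespace Vale.Agent.P050.Opt.H322

open Vale.Agent.P050 Vale.Agent.P050.Dense

/-- the fibres of the side function -/
abbrev Fb {Ω : Type} (side : Ω → Bool) (b : Bool) : Type := {a : Ω // side a = b}

/-- order a pair (point on the side `b`, point on the other side) by sides -/
def sw {Ω : Type} (side : Ω → Bool) :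
    (b : Bool) → Fb side b × Fb side (!b) ≃ Fb side true × Fb side false
  | true => Equiv.refl _
  | false => Equiv.prodComm _ _

/-- the tensor square -/
def sqK {Ω : Type} (side : Ω → Bool) (W : Ω → Ω → ℝ)
    (p p' : Fb side true × Fb side false) : ℝ := W p.1.1 p'.2.1 * W p'.1.1 p.2.1

theorem sqK_symm {Ω : Type} (side : Ω → Bool) (W : Ω → Ω → ℝ)
    (p p' : Fb side true × Fb side false) : sqK side W p p' = sqK side W p' p := by
  unfold sqK
  rw [mul_comm]

theorem sqK_sw {Ω : Type} (side : Ω → Bool) (W : Ω → Ω → ℝ) (hs : ∀ x y, W x y = W y x)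
    (b b' : Bool) (hb : b ≠ b') (x : Fb side b × Fb side (!b)) (y : Fb side b' × Fb side (!b')) :
    sqK side W (sw side b x) (sw side b' y) = W x.1.1 y.1.1 * W x.2.1 y.2.1 := by
  cases b <;> cases b'
  · exact absurd rfl hb
  · show W x.2.1 y.2.1 * W y.1.1 x.1.1 = _
    rw [hs y.1.1 x.1.1, mul_comm]
  · show W x.1.1 y.1.1 * W y.2.1 x.2.1 = _
    rw [hs y.2.1 x.2.1]
  · exact absurd rfl hb

/-- **The product of the two orientations.** -/
theorem hS_mul {V Ω : Type} [Fintype V] [DecidableEq V] [Fintype Ω] (side : Ω → Bool)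
    (H : SimpleGraph V) [DecidableRel H.Adj] (W : Ω → Ω → ℝ) (hs : ∀ x y, W x y = W y x)
    (s : V → Bool) (h : ∀ u v, H.Adj u v → s u ≠ s v) :
    hS side H W hs s * hS side H W hs (fun v => !(s v))
      = ∑ z : V → Fb side true × Fb side false,
          ∏ e ∈ H.edgeFinset, ev (sqK side W) (sqK_symm side W) z e := by
  classical
  unfold hS
  rw [Finset.sum_mul_sum, ← Fintype.sum_prod_type']
  let E : (((v : V) → Fb side (s v)) × ((v : V) → Fb side (!(s v)))) ≃
      (V → Fb side true × Fb side false) :=
    { toFun := fun q v => sw side (s v) (q.1 v, q.2 v)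
      invFun := fun z => (fun v => ((sw side (s v)).symm (z v)).1,
        fun v => ((sw side (s v)).symm (z v)).2)
      left_inv := fun q => by
        refine Prod.ext ?_ ?_
        · funext v
          simp
        · funext v
          simp
      right_inv := fun z => by
        funext v
        simp }
  refine Fintype.sum_equiv E _ _ fun q => ?_
  rw [← Finset.prod_mul_distrib]
  refine Finset.prod_congr rfl fun e he => ?_
  induction e using Sym2.ind with
  | _ u v =>
    rw [SimpleGraph.mem_edgeFinset, SimpleGraph.mem_edgeSet] at he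
    show W (q.1 u).1 (q.1 v).1 * W (q.2 u).1 (q.2 v).1
      = sqK side W (sw side (s u) (q.1 u, q.2 u)) (sw side (s v) (q.1 v, q.2 v))
    rw [sqK_sw side W hs (s u) (s v) (h u v he)]

theorem pden_sqK {Ω : Type} [Fintype Ω] (side : Ω → Bool) (W : Ω → Ω → ℝ) :
    pden (sqK side W) = ((∑ x : Fb side true, ∑ y : Fb side false, W x.1 y.1)
      / ((Fintype.card (Fb side true) : ℝ) * (Fintype.card (Fb side false) : ℝ))) ^ 2 := by
  classical
  unfold pden
  rw [div_pow, Fintype.card_prod]
  push_cast
  congr 1
  rw [Fintype.sum_prod_type]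
  simp_rw [Fintype.sum_prod_type]
  unfold sqK
  simp only
  rw [sq, Finset.sum_mul_sum]
  have h1 : ∀ x : Fb side true, ∑ y : Fb side false, ∑ x' : Fb side true, ∑ y' : Fb side false,
      W x.1 y'.1 * W x'.1 y.1
      = ∑ x' : Fb side true, (∑ y' : Fb side false, W x.1 y'.1) * (∑ y : Fb side false, W x'.1 y.1)
      := by
    intro x
    rw [Finset.sum_comm]
    refine Finset.sum_congr rfl fun x' _ => ?_
    rw [Finset.sum_mul_sum, Finset.sum_comm]
  exact Finset.sum_congr rfl fun x _ => h1 x

/-- the two orientations together, for a kernel which is almost `1` between the sides -/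
theorem hS_mul_ge {V Ω : Type} [Fintype V] [DecidableEq V] [Fintype Ω] (side : Ω → Bool)
    (H : SimpleGraph V) [DecidableRel H.Adj] (hH : H.IsBipartite) {D : ℕ}
    (hD : ∀ v, H.degree v ≤ D) (W : Ω → Ω → ℝ) (hs : ∀ x y, W x y = W y x)
    (h0 : ∀ x y, 0 ≤ W x y) (h1 : ∀ x y, W x y ≤ 1)
    (hX : Nonempty (Fb side true)) (hY : Nonempty (Fb side false)) {q : ℝ}
    (hq : q = (∑ x : Fb side true, ∑ y : Fb side false, W x.1 y.1)
      / ((Fintype.card (Fb side true) : ℝ) * (Fintype.card (Fb side false) : ℝ)))
    (hp : 1 - 1 / (10 ^ 15 * (D:ℝ)) ≤ q ^ 2)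
    (s : V → Bool) (h : ∀ u v, H.Adj u v → s u ≠ s v) :
    ((Fintype.card (Fb side true) : ℝ) * (Fintype.card (Fb side false) : ℝ)) ^ Fintype.card V
        * q ^ (2 * H.edgeFinset.card)
      ≤ hS side H W hs s * hS side H W hs (fun v => !(s v)) := by
  classical
  rw [hS_mul side H W hs s h]
  have hpd : pden (sqK side W) = q ^ 2 := by rw [pden_sqK, hq]
  have key := dense_kernel3 H hH hD (sqK side W) (sqK_symm side W)
    (fun p p' => mul_nonneg (h0 _ _) (h0 _ _))
    (fun p p' => mul_le_one₀ (h1 _ _) (h0 _ _) (h1 _ _)) (by rw [hpd]; exact hp)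
  rw [hpd] at key
  unfold tden at key
  have hc : (Fintype.card (Fb side true × Fb side false) : ℝ)
      = (Fintype.card (Fb side true) : ℝ) * (Fintype.card (Fb side false) : ℝ) := by
    rw [Fintype.card_prod]
    push_cast
    rfl
  have hpos : 0 < (Fintype.card (Fb side true) : ℝ) * (Fintype.card (Fb side false) : ℝ) := by
    have := Fintype.card_pos (α := Fb side true)
    have := Fintype.card_pos (α := Fb side false)
    positivity
  rw [hc, le_div_iff₀ (by positivity)] at key
  rw [pow_mul]
  rw [mul_comm]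
  exact key

end Vale.Agent.P050.Opt.H322
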