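import Vale.Agent.P050.O.H322.TwoCol

set_option linter.all false

/-!
Nearly complete bipartite targets: from the product of the two orientations to the homomorphism
density.
-/

open Finset

namespace Vale.Agent.P050.Opt.H322

open Vale.Agent.P050 Vale.Agent.P050.Dense

theorem two_mul_le_add_of_sq {a b c : ℝ} (ha : 0 ≤ a) (hb : 0 ≤ b) (hc : 0 ≤ c)
    (h : c ^ 2 ≤ a * b) : 2 * c ≤ a + b := by
  by_contra hn
  push Not at hn
  nlinarith [sq_nonneg (a - b)]

theorem num_bip {n m C : ℕ} (hC : 2 ^ n ≤ C * 2 ^ m) (hnm : n ≤ 2 * m) {ρ q : ℝ} (hρ : 0 ≤ ρ)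
    (hρ2 : 2 * ρ ≤ 1) (hq : 0 ≤ q) : (2 * ρ ^ 2 * q) ^ m ≤ C * (ρ ^ n * q ^ m) := by
  have h1 : (2 * ρ) ^ (2 * m) ≤ (2 * ρ) ^ n := pow_le_pow_of_le_one (by positivity) hρ2 hnm
  have h2 : (2:ℝ) ^ n ≤ C * 2 ^ m := by exact_mod_cast hC
  have h3 : (0:ℝ) < 2 ^ m := by positivity
  refine le_of_mul_le_mul_left ?_ h3
  calc (2:ℝ) ^ m * (2 * ρ ^ 2 * q) ^ m = (2 * ρ) ^ (2 * m) * q ^ m := by
        rw [pow_mul, ← mul_pow, ← mul_pow]
        congr 1
        ring
    _ ≤ (2 * ρ) ^ n * q ^ m := mul_le_mul_of_nonneg_right h1 (by positivity)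
    _ = 2 ^ n * (ρ ^ n * q ^ m) := by rw [mul_pow]; ring
    _ ≤ (C * 2 ^ m) * (ρ ^ n * q ^ m) := mul_le_mul_of_nonneg_right h2 (by positivity)
    _ = 2 ^ m * (C * (ρ ^ n * q ^ m)) := by ring

/-- sum over the proper colourings, paired by exchanging the sides -/
theorem sum_hS_ge {V Ω : Type} [Fintype V] [DecidableEq V] [Fintype Ω] (side : Ω → Bool)
    (H : SimpleGraph V) [DecidableRel H.Adj] (W : Ω → Ω → ℝ) (hs : ∀ x y, W x y = W y x)
    (h0 : ∀ x y, 0 ≤ W x y) {c : ℝ} (hc : 0 ≤ c)
    (hB : ∀ s : V → Bool, (∀ u v, H.Adj u v → s u ≠ s v) →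
      c ^ 2 ≤ hS side H W hs s * hS side H W hs (fun v => !(s v))) :
    ((univ.filter fun s : V → Bool => ∀ u v, H.Adj u v → s u ≠ s v).card : ℝ) * c
      ≤ ∑ s : V → Bool, hS side H W hs s := by
  classical
  set P := univ.filter fun s : V → Bool => ∀ u v, H.Adj u v → s u ≠ s v with hP
  have h1 : ∑ s ∈ P, hS side H W hs s ≤ ∑ s : V → Bool, hS side H W hs s :=
    Finset.sum_le_sum_of_subset_of_nonneg (Finset.subset_univ _)
      fun s _ _ => hS_nonneg side H W hs h0 s
  refine le_trans ?_ h1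
  have h2 : ∑ s ∈ P, hS side H W hs (fun v => !(s v)) = ∑ s ∈ P, hS side H W hs s := by
    refine Finset.sum_bij' (fun s _ v => !(s v)) (fun s _ v => !(s v)) ?_ ?_ ?_ ?_ ?_
    · intro s hs'
      rw [hP, Finset.mem_filter] at hs' ⊢
      refine ⟨Finset.mem_univ _, fun u v huv => ?_⟩
      have := hs'.2 u v huv
      show (!(s u)) ≠ !(s v)
      revert this
      cases s u <;> cases s v <;> decide
    · intro s hs'
      rw [hP, Finset.mem_filter] at hs' ⊢
      refine ⟨Finset.mem_univ _, fun u v huv => ?_⟩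
      have := hs'.2 u v huv
      show (!(s u)) ≠ !(s v)
      revert this
      cases s u <;> cases s v <;> decide
    · intro s hs'
      funext v
      simp
    · intro s hs'
      funext v
      simp
    · intro s hs'
      rfl
  have h3 : ∑ s ∈ P, (2 * c) ≤ ∑ s ∈ P, (hS side H W hs s + hS side H W hs (fun v => !(s v))) := by
    refine Finset.sum_le_sum fun s hs' => ?_
    exact two_mul_le_add_of_sq (hS_nonneg side H W hs h0 _) (hS_nonneg side H W hs h0 _) hc
      (hB s (Finset.mem_filter.1 hs').2)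
  rw [Finset.sum_add_distrib, h2, Finset.sum_const, nsmul_eq_mul] at h3
  linarith

/-- **From the two orientations to the homomorphism density.** -/
theorem bip_core {V Ω : Type} [Fintype V] [DecidableEq V] [Fintype Ω] (side : Ω → Bool)
    (H : SimpleGraph V) [DecidableRel H.Adj] (s₀ : V → Bool)
    (h₀ : ∀ u v, H.Adj u v → s₀ u ≠ s₀ v) (hnm : Fintype.card V ≤ 2 * H.edgeFinset.card)
    (W : Ω → Ω → ℝ) (hs : ∀ x y, W x y = W y x)
    (h0 : ∀ x y, 0 ≤ W x y) {q : ℝ} (hq : 0 ≤ q)
    (hp : pden W * (Fintype.card Ω : ℝ) ^ 2 = 2 * (q * ((Fintype.card {a : Ω // side a = true} : ℝ)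
      * (Fintype.card {a : Ω // side a = false} : ℝ))))
    (hB : ∀ s : V → Bool, (∀ u v, H.Adj u v → s u ≠ s v) →
      ((Fintype.card {a : Ω // side a = true} : ℝ) * (Fintype.card {a : Ω // side a = false} : ℝ))
        ^ Fintype.card V * q ^ (2 * H.edgeFinset.card)
        ≤ hS side H W hs s * hS side H W hs (fun v => !(s v))) :
    pden W ^ H.edgeFinset.card ≤ tden H W hs := by
  classical
  rcases isEmpty_or_nonempty Ω with hΩ | hΩ
  · -- empty target
    have hN : (Fintype.card Ω : ℝ) = 0 := by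
      rw [Fintype.card_eq_zero]
      norm_num
    have hpd : pden W = 0 := by
      unfold pden
      rw [hN]
      norm_num
    rcases Nat.eq_zero_or_pos H.edgeFinset.card with hm | hm
    · have hn : Fintype.card V = 0 := by omega
      have : IsEmpty V := Fintype.card_eq_zero_iff.1 hn
      unfold tden
      have hE : H.edgeFinset = ∅ := Finset.card_eq_zero.1 hm
      rw [hm, pow_zero, hn, pow_zero, hE]
      simp
    · rw [hpd, zero_pow hm.ne']
      unfold tden
      refine div_nonneg (Finset.sum_nonneg fun z _ => Finset.prod_nonneg fun e _ => ?_)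
        (by positivity)
      induction e using Sym2.ind with
      | _ u v => exact h0 _ _
  set X : ℝ := (Fintype.card {a : Ω // side a = true} : ℝ) with hX
  set Y : ℝ := (Fintype.card {a : Ω // side a = false} : ℝ) with hY
  set N : ℝ := (Fintype.card Ω : ℝ) with hN
  set n := Fintype.card V with hn
  set m := H.edgeFinset.card with hm
  have hX0 : 0 ≤ X := by positivity
  have hY0 : 0 ≤ Y := by positivity
  have hNpos : 0 < N := by rw [hN]; exact_mod_cast Fintype.card_pos
  have hXY : X + Y = N := by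
    have h1 := Fintype.card_subtype_compl (fun a : Ω => side a = true)
    have h2 : Fintype.card {a : Ω // ¬ side a = true} = Fintype.card {a : Ω // side a = false} :=
      Fintype.card_congr (Equiv.subtypeEquivRight fun a => by simp)
    have h3 : Fintype.card {a : Ω // side a = true} ≤ Fintype.card Ω :=
      Fintype.card_subtype_le _
    have h4 : Fintype.card {a : Ω // side a = true} + Fintype.card {a : Ω // side a = false}
        = Fintype.card Ω := by omega
    rw [hX, hY, hN]
    exact_mod_cast h4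
  set r : ℝ := Real.sqrt (X * Y) with hr
  have hr0 : 0 ≤ r := Real.sqrt_nonneg _
  have hr2 : r ^ 2 = X * Y := Real.sq_sqrt (by positivity)
  have hrN : 2 * r ≤ N := by
    rw [← hXY]
    exact two_mul_le_add_of_sq hX0 hY0 hr0 (le_of_eq hr2)
  have hρ0 : 0 ≤ r / N := div_nonneg hr0 hNpos.le
  have hρ2 : 2 * (r / N) ≤ 1 := by
    rw [← mul_div_assoc, div_le_one hNpos]
    exact hrN
  have hpd : pden W = 2 * (r / N) ^ 2 * q := by
    have hN2 : N ^ 2 ≠ 0 := by positivity
    have : pden W = (2 * (q * (X * Y))) / N ^ 2 := by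
      rw [eq_div_iff hN2]
      exact hp
    rw [this, div_pow, hr2]
    ring
  have hsum := sum_hS_ge side H W hs h0 (c := r ^ n * q ^ m) (by positivity) (by
    intro s hs'
    have := hB s hs'
    refine le_trans (le_of_eq ?_) this
    rw [mul_pow, ← pow_mul, ← pow_mul, Nat.mul_comm n 2, Nat.mul_comm m 2, pow_mul, hr2])
  have hnum := num_bip (two_col H s₀ h₀) hnm hρ0 hρ2 hq
  rw [hpd]
  refine hnum.trans ?_
  unfold tden
  rw [sum_eq_sum_hS side H W hs, le_div_iff₀ (by positivity)]
  refine le_trans (le_of_eq ?_) hsum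
  have hNn : N ^ n ≠ 0 := by positivity
  rw [div_pow, div_mul_eq_mul_div, mul_assoc, div_mul_cancel₀ _ hNn]

end Vale.Agent.P050.Opt.H322
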