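import Vale.Agent.P050.O.H322.Bip1

set_option linter.all false

/-!
Nearly complete bipartite targets: kernels and graphs, for `H` without isolated vertices.
-/

open Finset

namespace Vale.Agent.P050.Opt.H322

open Vale.Agent.P050 Vale.Agent.P050.Dense

theorem sum_split {Ω : Type} [Fintype Ω] (side : Ω → Bool) (f : Ω → ℝ) :
    ∑ x, f x = ∑ x : Fb side true, f x.1 + ∑ x : Fb side false, f x.1 := by
  classical
  rw [← Finset.sum_filter_add_sum_filter_not (univ : Finset Ω) (fun a => side a = true)]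
  congr 1
  · rw [← Finset.sum_subtype_eq_sum_filter]
    refine Finset.sum_bij' (fun a _ => ⟨a.1, a.2⟩) (fun a _ => ⟨a.1, a.2⟩) ?_ ?_ ?_ ?_ ?_ <;>
      simp
  · refine Finset.sum_bij' (fun a ha => ⟨a, by simpa using ha⟩) (fun a _ => a.1) ?_ ?_ ?_ ?_ ?_
    · intro a ha; exact Finset.mem_univ _
    · intro a ha
      rw [Finset.mem_filter]
      exact ⟨Finset.mem_univ _, by rw [a.2]; decide⟩
    · intro a ha; rfl
    · intro a ha; rfl
    · intro a ha; rfl

theorem sum_sides {Ω : Type} [Fintype Ω] (side : Ω → Bool) (W : Ω → Ω → ℝ)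
    (hs : ∀ x y, W x y = W y x) (hW : ∀ x y, side x = side y → W x y = 0) :
    ∑ x, ∑ y, W x y = 2 * ∑ x : Fb side true, ∑ y : Fb side false, W x.1 y.1 := by
  classical
  rw [sum_split side]
  have e1 : ∀ x : Fb side true, ∑ y, W x.1 y = ∑ y : Fb side false, W x.1 y.1 := by
    intro x
    rw [sum_split side]
    rw [Finset.sum_eq_zero (s := (univ : Finset (Fb side true))), zero_add]
    intro y _
    exact hW _ _ (by rw [x.2, y.2])
  have e2 : ∀ x : Fb side false, ∑ y, W x.1 y = ∑ y : Fb side true, W x.1 y.1 := by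
    intro x
    rw [sum_split side, add_comm]
    rw [Finset.sum_eq_zero (s := (univ : Finset (Fb side false))), zero_add]
    intro y _
    exact hW _ _ (by rw [x.2, y.2])
  rw [Finset.sum_congr rfl fun x _ => e1 x, Finset.sum_congr rfl fun x _ => e2 x]
  have e3 : ∑ x : Fb side false, ∑ y : Fb side true, W x.1 y.1
      = ∑ x : Fb side true, ∑ y : Fb side false, W x.1 y.1 := by
    rw [Finset.sum_comm]
    exact Finset.sum_congr rfl fun x _ => Finset.sum_congr rfl fun y _ => hs _ _
  rw [e3]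
  ring

/-- all kernels supported between two sides and almost `1` there -/
theorem bip_kernel {V Ω : Type} [Fintype V] [DecidableEq V] [Fintype Ω] (side : Ω → Bool)
    (H : SimpleGraph V) [DecidableRel H.Adj] (hH : H.IsBipartite)
    (hnm : Fintype.card V ≤ 2 * H.edgeFinset.card) {D : ℕ}
    (hD : ∀ v, H.degree v ≤ D) (W : Ω → Ω → ℝ) (hs : ∀ x y, W x y = W y x)
    (h0 : ∀ x y, 0 ≤ W x y) (h1 : ∀ x y, W x y ≤ 1)
    (hW : ∀ x y, side x = side y → W x y = 0)
    (hX : Nonempty (Fb side true)) (hY : Nonempty (Fb side false)) {q : ℝ}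
    (hq : q = (∑ x : Fb side true, ∑ y : Fb side false, W x.1 y.1)
      / ((Fintype.card (Fb side true) : ℝ) * (Fintype.card (Fb side false) : ℝ)))
    (hp : 1 - 1 / (10 ^ 15 * (D:ℝ)) ≤ q ^ 2) :
    pden W ^ H.edgeFinset.card ≤ tden H W hs := by
  classical
  obtain ⟨c⟩ := hH
  have hXp := Fintype.card_pos (α := Fb side true)
  have hYp := Fintype.card_pos (α := Fb side false)
  have hpos : 0 < (Fintype.card (Fb side true) : ℝ) * (Fintype.card (Fb side false) : ℝ) := by
    positivity
  have hΩ : Nonempty Ω := ⟨hX.some.1⟩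
  have hNp : 0 < (Fintype.card Ω : ℝ) := by exact_mod_cast Fintype.card_pos
  have hq0 : 0 ≤ q := by
    rw [hq]
    exact div_nonneg (Finset.sum_nonneg fun x _ => Finset.sum_nonneg fun y _ => h0 _ _) hpos.le
  have hsum : ∑ x : Fb side true, ∑ y : Fb side false, W x.1 y.1
      = q * ((Fintype.card (Fb side true) : ℝ) * (Fintype.card (Fb side false) : ℝ)) := by
    rw [hq, div_mul_cancel₀ _ hpos.ne']
  refine bip_core side H (fun v => decide (c v = 0)) ?_ hnm W hs h0 hq0 ?_ ?_
  · intro u v huv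
    have h2 := c.valid huv
    intro h3
    apply h2
    have h4 : (c u = 0) ↔ (c v = 0) := by simpa using h3
    by_cases h5 : c u = 0
    · rw [h5, h4.1 h5]
    · have h6 : c v ≠ 0 := fun h7 => h5 (h4.2 h7)
      omega
  · unfold pden
    rw [div_mul_cancel₀ _ (by positivity), sum_sides side W hs hW, hsum]
  · intro s h
    exact hS_mul_ge side H ⟨c⟩ hD W hs h0 h1 hX hY hq hp s h

theorem sum_adjK {Ω : Type} [Fintype Ω] (G : SimpleGraph Ω) [DecidableRel G.Adj] :
    ∑ u, ∑ v, adjK G u v = 2 * (Nat.card G.edgeSet : ℝ) := by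
  classical
  rw [Nat.card_eq_fintype_card, ← SimpleGraph.edgeFinset_card]
  have h3 := G.sum_degrees_eq_twice_card_edges
  have h4 : ((∑ u, G.degree u : ℕ) : ℝ) = ((2 * G.edgeFinset.card : ℕ) : ℝ) := by
    rw [h3]
  push_cast at h4
  rw [← h4]
  refine Finset.sum_congr rfl fun u _ => ?_
  unfold adjK
  rw [Finset.sum_boole, ← SimpleGraph.card_neighborFinset_eq_degree]
  congr 2
  ext v
  simp

/-- nearly complete bipartite targets, `H` without isolated vertices -/
theorem bip_graph_aux {V Ω : Type} [Finite V] [Finite Ω] (H : SimpleGraph V)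
    (G : SimpleGraph Ω) (hH : H.IsBipartite) (hnm : Nat.card V ≤ 2 * Nat.card H.edgeSet)
    (D : ℕ) (hdeg : ∀ v, (H.neighborSet v).ncard ≤ D) (S : Set Ω)
    (hS : ∀ a b, G.Adj a b → (a ∈ S ↔ b ∉ S)) (hX : S.Nonempty) (hY : Sᶜ.Nonempty)
    (he : (1 - 1 / (2 * 10 ^ 15 * (D:ℝ))) * ((S.ncard : ℝ) * (Sᶜ.ncard : ℝ))
      ≤ (Nat.card G.edgeSet : ℝ)) :
    edgeDensity G ^ Nat.card H.edgeSet ≤ homDensity H G := by
  classical
  have := Fintype.ofFinite V
  have := Fintype.ofFinite Ω
  let side : Ω → Bool := fun a => decide (a ∈ S)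
  have hcX : (Fintype.card (Fb side true) : ℝ) = (S.ncard : ℝ) := by
    have : Fintype.card (Fb side true) = S.ncard := by
      rw [← Nat.card_eq_fintype_card, ← Nat.card_coe_set_eq]
      exact Nat.card_congr (Equiv.subtypeEquivRight fun a => by simp [side])
    exact_mod_cast this
  have hcY : (Fintype.card (Fb side false) : ℝ) = (Sᶜ.ncard : ℝ) := by
    have : Fintype.card (Fb side false) = Sᶜ.ncard := by
      rw [← Nat.card_eq_fintype_card, ← Nat.card_coe_set_eq]
      exact Nat.card_congr (Equiv.subtypeEquivRight fun a => by simp [side])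
    exact_mod_cast this
  have hX' : Nonempty (Fb side true) := ⟨⟨hX.some, by simpa [side] using hX.some_mem⟩⟩
  have hY' : Nonempty (Fb side false) := ⟨⟨hY.some, by simpa [side] using hY.some_mem⟩⟩
  have hW : ∀ x y, side x = side y → adjK G x y = 0 := by
    intro x y hxy
    unfold adjK
    rw [if_neg]
    intro hadj
    have h1 := hS x y hadj
    have h2 : (x ∈ S) ↔ (y ∈ S) := by simpa [side] using hxy
    tauto
  have hXp := Fintype.card_pos (α := Fb side true)
  have hYp := Fintype.card_pos (α := Fb side false)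
  have hpos : 0 < (Fintype.card (Fb side true) : ℝ) * (Fintype.card (Fb side false) : ℝ) := by
    positivity
  have hsum : ∑ x : Fb side true, ∑ y : Fb side false, adjK G x.1 y.1
      = (Nat.card G.edgeSet : ℝ) := by
    have h1 := sum_sides side (adjK G) (adjK_symm G) hW
    rw [sum_adjK] at h1
    linarith
  rw [← tden_adjK, ← pden_adjK, Nat.card_eq_fintype_card, ← SimpleGraph.edgeFinset_card]
  refine bip_kernel side H hH ?_ (D := D) ?_ (adjK G) (adjK_symm G) (fun x y => ?_) (fun x y => ?_)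
    hW hX' hY' rfl ?_
  · rw [Nat.card_eq_fintype_card, Nat.card_eq_fintype_card, ← SimpleGraph.edgeFinset_card] at hnm
    exact hnm
  · intro v
    have h1 := hdeg v
    rw [← Nat.card_coe_set_eq, Nat.card_eq_fintype_card, SimpleGraph.card_neighborSet_eq_degree]
      at h1
    exact h1
  · unfold adjK; split_ifs <;> norm_num
  · unfold adjK; split_ifs <;> norm_num
  · rw [hsum]
    set δ : ℝ := 1 / (10 ^ 15 * (D:ℝ)) with hδ
    have hδ2 : 1 / (2 * 10 ^ 15 * (D:ℝ)) = δ / 2 := by
      rw [hδ, div_div, mul_assoc, mul_comm 2, mul_assoc, mul_comm (D:ℝ) 2, ← mul_assoc]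
    rw [hδ2, ← hcX, ← hcY] at he
    have hδ1 : δ ≤ 1 := by
      rcases Nat.eq_zero_or_pos D with h | h
      · rw [hδ, h]; norm_num
      · rw [hδ]
        have : (1:ℝ) ≤ D := by exact_mod_cast h
        rw [div_le_one (by positivity)]
        nlinarith
    have hδ0 : 0 ≤ δ := by rw [hδ]; positivity
    have hq1 : 1 - δ / 2 ≤ (Nat.card G.edgeSet : ℝ)
        / ((Fintype.card (Fb side true) : ℝ) * (Fintype.card (Fb side false) : ℝ)) := by
      rw [le_div_iff₀ hpos]
      exact he
    nlinarith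

end Vale.Agent.P050.Opt.H322
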