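import Vale.Agent.P050.O.H322.BipTransfer
import Vale.Agent.P050.O.H774.BuiltGraph

set_option linter.all false

/-!
Bipartite targets of large minimum degree, for graphs built by gluing.
-/

open Finset

namespace Vale.Agent.P050.Opt

open Vale.Agent.P050 Vale.Agent.P050.Dense

/-- the class grows with `D` -/
theorem Built.mono {D D' : ℕ} (hD : D ≤ D') {V : Type} {H : SimpleGraph V} (h : Built D V H) :
    Built D' V H := by
  induction h with
  | base V H hV hb hd => exact Built.base V H hV hb fun v => (hd v).trans hD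
  | dom V H a hV h => exact Built.dom V H a hV h
  | glue V₁ V₂ V H₁ H₂ f₁ f₂ _ _ h hc i1 i2 => exact Built.glue V₁ V₂ V H₁ H₂ f₁ f₂ i1 i2 h hc
  | copies V₀ V ι H S f hι _ h1 h2 h3 h4 i1 =>
    exact Built.copies V₀ V ι H S f hι i1 h1 h2 h3 h4

namespace H322

/-- targets without edges -/
theorem edgeless_le {V Ω : Type} [Finite V] [Finite Ω] [Nonempty Ω] (H : SimpleGraph V)
    (G : SimpleGraph Ω) (hG : ∀ a b, ¬ G.Adj a b) :
    edgeDensity G ^ Nat.card H.edgeSet ≤ homDensity H G := by
  classical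
  have h1 : edgeDensity G = 0 := by
    have h2 : Nat.card G.edgeSet = 0 := by
      rw [Nat.card_eq_zero]
      left
      refine ⟨fun e => ?_⟩
      obtain ⟨e, he⟩ := e
      induction e using Sym2.ind with
      | _ a b => exact hG a b he
    unfold edgeDensity
    rw [h2]
    norm_num
  rcases Nat.eq_zero_or_pos (Nat.card H.edgeSet) with hm | hm
  · rw [homDensity_support H G]
    have h3 := card_support_le H
    rw [card_edgeSet_support, hm, Nat.mul_zero, Nat.le_zero, Nat.card_eq_zero] at h3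
    have h4 : IsEmpty ↥H.support := by
      rcases h3 with h | h
      · exact h
      · exact absurd (inferInstance : Finite ↥H.support) (not_finite_iff_infinite.2 h)
    rw [hm, pow_zero]
    unfold homDensity
    rw [Nat.card_eq_zero.2 (Or.inl h4), pow_zero, div_one]
    have h5 : 0 < Nat.card ((H.induce H.support) →g G) := by
      have : Nonempty ((H.induce H.support) →g G) :=
        ⟨⟨fun v => (h4.false v).elim, fun {a} => (h4.false a).elim⟩⟩
      exact Nat.card_pos
    exact_mod_cast h5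
  · rw [h1, zero_pow hm.ne']
    unfold homDensity
    positivity

end H322

open H322

/-- **Bipartite targets of large minimum degree**: every vertex of `G` is adjacent to all but a
fraction `1 / (2 * 10 ^ 13 * D)` of the other side. -/
theorem built_bip_of (hr : RowsBuilt) {V Ω : Type} [Finite V] [Finite Ω] [Nonempty Ω]
    (H : SimpleGraph V) (G : SimpleGraph Ω) (hH : H.IsBipartite) (D : ℕ) (hB : Built D V H)
    (S : Set Ω) (hS : ∀ a b, G.Adj a b → (a ∈ S ↔ b ∉ S))
    (hdeg1 : ∀ a ∈ S, (1 - 1 / (2 * 10 ^ 13 * (D:ℝ))) * (Sᶜ.ncard : ℝ)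
      ≤ ((G.neighborSet a).ncard : ℝ))
    (hdeg2 : ∀ a ∉ S, (1 - 1 / (2 * 10 ^ 13 * (D:ℝ))) * (S.ncard : ℝ)
      ≤ ((G.neighborSet a).ncard : ℝ)) :
    edgeDensity G ^ Nat.card H.edgeSet ≤ homDensity H G := by
  classical
  have hfV := Fintype.ofFinite V
  have hfΩ := Fintype.ofFinite Ω
  by_cases hXY : S.Nonempty ∧ Sᶜ.Nonempty
  swap
  · refine edgeless_le H G fun a b hab => ?_
    have h1 := hS a b hab
    by_cases ha : a ∈ S
    · exact hXY ⟨⟨a, ha⟩, ⟨b, h1.1 ha⟩⟩
    · refine hXY ⟨⟨b, ?_⟩, ⟨a, ha⟩⟩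
      by_contra hb
      exact ha (h1.2 hb)
  obtain ⟨hX, hY⟩ := hXY
  -- the parameter
  obtain ⟨D', θ, hD', hB', hθ0, hθ1, hθ, hθD⟩ : ∃ (D' : ℕ) (θ : ℝ), 1 ≤ D' ∧ Built D' V H ∧
      0 < θ ∧ θ ≤ 1 ∧ 10 ^ 13 * (D':ℝ) * θ ≤ 1 ∧
      1 - θ / 2 ≤ 1 - 1 / (2 * 10 ^ 13 * (D:ℝ)) := by
    rcases Nat.eq_zero_or_pos D with h | h
    · refine ⟨1, 1 / 10 ^ 13, le_rfl, hB.mono (by omega), by norm_num, by norm_num, by norm_num, ?_⟩
      rw [h]
      norm_num
    · have h1 : (1:ℝ) ≤ D := by exact_mod_cast h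
      refine ⟨D, 1 / (10 ^ 13 * (D:ℝ)), h, hB, by positivity, ?_,
        le_of_eq (mul_one_div_cancel (by positivity)), ?_⟩
      · rw [div_le_one (by positivity)]
        nlinarith
      · rw [div_div, mul_comm (10 ^ 13 * (D:ℝ)) 2, mul_assoc]
  let side : Ω → Bool := fun a => decide (a ∈ S)
  have hcX : (Fintype.card (Fb side true) : ℝ) = (S.ncard : ℝ) := by
    have : Fintype.card (Fb side true) = S.ncard := by
      rw [← Nat.card_eq_fintype_card, ← Nat.card_coe_set_eq]
      exact Nat.card_congr (Equiv.subtypeEquivRight fun a => by simp [side])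
    exact_mod_cast this
  have hcY : (Fintype.card (Fb side false) : ℝ) = (Sᶜ.ncard : ℝ) := by
    have : Fintype.card (Fb side false) = Sᶜ.ncard := by
      rw [← Nat.card_eq_fintype_card, ← Nat.card_coe_set_eq]
      exact Nat.card_congr (Equiv.subtypeEquivRight fun a => by simp [side])
    exact_mod_cast this
  have hX' : Nonempty (Fb side true) := ⟨⟨hX.some, by simpa [side] using hX.some_mem⟩⟩
  have hY' : Nonempty (Fb side false) := ⟨⟨hY.some, by simpa [side] using hY.some_mem⟩⟩
  have hW : ∀ x y, side x = side y → adjK G x y = 0 := by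
    intro x y hxy
    unfold adjK
    rw [if_neg]
    intro hadj
    have h1 := hS x y hadj
    have h2 : (x ∈ S) ↔ (y ∈ S) := by simpa [side] using hxy
    tauto
  have h01 : ∀ x y, 0 ≤ adjK G x y := by
    intro x y; unfold adjK; split_ifs <;> norm_num
  have h11 : ∀ x y, adjK G x y ≤ 1 := by
    intro x y; unfold adjK; split_ifs <;> norm_num
  have hrow1 : ∀ x : Fb side true, (1 - θ / 2) * (Fintype.card (Fb side false) : ℝ)
      ≤ ∑ y : Fb side false, adjK G x.1 y.1 := by
    intro x
    have h2 := H774.sum_adjK_b G x.1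
    rw [sum_split side] at h2
    rw [Finset.sum_eq_zero (s := (univ : Finset (Fb side true))), zero_add] at h2
    · rw [h2, hcY]
      refine le_trans (mul_le_mul_of_nonneg_right hθD (by positivity)) (hdeg1 x.1 ?_)
      have := x.2
      simpa [side] using this
    · intro y _
      exact hW _ _ (by rw [x.2, y.2])
  have hrow2 : ∀ x : Fb side false, (1 - θ / 2) * (Fintype.card (Fb side true) : ℝ)
      ≤ ∑ y : Fb side true, adjK G x.1 y.1 := by
    intro x
    have h2 := H774.sum_adjK_b G x.1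
    rw [sum_split side, add_comm] at h2
    rw [Finset.sum_eq_zero (s := (univ : Finset (Fb side false))), zero_add] at h2
    · rw [h2, hcX]
      refine le_trans (mul_le_mul_of_nonneg_right hθD (by positivity)) (hdeg2 x.1 ?_)
      have := x.2
      simpa [side] using this
    · intro y _
      exact hW _ _ (by rw [x.2, y.2])
  rw [← tden_adjK, ← pden_adjK, Nat.card_eq_fintype_card, ← SimpleGraph.edgeFinset_card]
  refine bip_transfer side H hH (adjK G) (adjK_symm G) h01 hW hX' hY' ?_
  refine hr H hD' hB' hθ0 hθ (sqK side (adjK G)) (sqK_symm side (adjK G))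
    (fun p p' => mul_nonneg (h01 _ _) (h01 _ _))
    (fun p p' => mul_le_one₀ (h11 _ _) (h01 _ _) (h11 _ _)) fun p => ?_
  rw [sum_sqK side (adjK G) (adjK_symm G), Fintype.card_prod]
  push_cast
  have e1 := hrow1 p.1
  have e2 := hrow2 p.2
  have e3 : 0 ≤ (1 - θ / 2) * (Fintype.card (Fb side false) : ℝ) :=
    mul_nonneg (by linarith) (by positivity)
  have e4 : 0 ≤ (1 - θ / 2) * (Fintype.card (Fb side true) : ℝ) :=
    mul_nonneg (by linarith) (by positivity)
  calc (1 - θ) * ((Fintype.card (Fb side true) : ℝ) * (Fintype.card (Fb side false) : ℝ))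
      ≤ (1 - θ / 2) ^ 2 * ((Fintype.card (Fb side true) : ℝ) * (Fintype.card (Fb side false) : ℝ)) := by
        refine mul_le_mul_of_nonneg_right ?_ (by positivity)
        nlinarith [sq_nonneg θ]
    _ = ((1 - θ / 2) * (Fintype.card (Fb side false) : ℝ))
          * ((1 - θ / 2) * (Fintype.card (Fb side true) : ℝ)) := by ring
    _ ≤ _ := mul_le_mul e1 e2 e4 (e3.trans e1)

end Vale.Agent.P050.Opt
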