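import Vale.Agent.P050.O.H322.Bip

set_option linter.all false

/-!
Bipartite targets from the tensor square, for every bipartite `H`.
-/

open Finset

namespace Vale.Agent.P050.Opt.H322

open Vale.Agent.P050 Vale.Agent.P050.Dense

/-- isolated vertices do not matter -/
theorem tden_support {V X : Type} [Fintype V] [DecidableEq V] [Fintype X] [Nonempty X]
    (H : SimpleGraph V) [DecidableRel H.Adj] (W : X → X → ℝ)
    (hs : ∀ x y, W x y = W y x) :
    tden H W hs = tden (H.induce H.support) W hs := by
  classical
  let E : (V → X) ≃ (↥H.support → X) × (↥(H.supportᶜ : Set V) → X) :=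
    { toFun := fun z => (fun v => z v.1, fun v => z v.1)
      invFun := fun p v => if h : v ∈ H.support then p.1 ⟨v, h⟩ else p.2 ⟨v, h⟩
      left_inv := fun z => by
        funext v
        show (if h : v ∈ H.support then z v else z v) = z v
        split_ifs <;> rfl
      right_inv := fun p => by
        refine Prod.ext ?_ ?_
        · funext v
          show (if h : v.1 ∈ H.support then p.1 ⟨v.1, h⟩ else p.2 ⟨v.1, h⟩) = p.1 v
          rw [dif_pos v.2]
        · funext v
          show (if h : v.1 ∈ H.support then p.1 ⟨v.1, h⟩ else p.2 ⟨v.1, h⟩) = p.2 v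
          rw [dif_neg v.2] }
  have h1 : ∀ z : V → X, ∏ e ∈ H.edgeFinset, ev W hs z e
      = ∏ e ∈ (H.induce H.support).edgeFinset, ev W hs (E z).1 e := by
    intro z
    rw [← SimpleGraph.map_edgeFinset_induce_of_support_subset (G := H) (s := H.support)
      subset_rfl, Finset.prod_map]
    refine Finset.prod_congr rfl fun e _ => ?_
    induction e using Sym2.ind with
    | _ u v => rfl
  have h2 : ∑ z : V → X, ∏ e ∈ H.edgeFinset, ev W hs z e
      = (Fintype.card X : ℝ) ^ Fintype.card ↥(H.supportᶜ : Set V)
        * ∑ z : ↥H.support → X, ∏ e ∈ (H.induce H.support).edgeFinset, ev W hs z e := by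
    rw [Finset.sum_congr rfl fun z _ => h1 z,
      Fintype.sum_equiv E _ (fun p => ∏ e ∈ (H.induce H.support).edgeFinset, ev W hs p.1 e)
        (fun z => rfl), Fintype.sum_prod_type, Finset.mul_sum]
    refine Finset.sum_congr rfl fun z _ => ?_
    simp only
    rw [Finset.sum_const, Finset.card_univ, Fintype.card_fun, nsmul_eq_mul]
    push_cast
    rfl
  have h3 : Fintype.card V = Fintype.card ↥(H.supportᶜ : Set V) + Fintype.card ↥H.support := by
    rw [add_comm, ← Nat.card_eq_fintype_card, ← Nat.card_eq_fintype_card,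
      ← Nat.card_eq_fintype_card, Nat.card_coe_set_eq, Nat.card_coe_set_eq,
      Set.ncard_add_ncard_compl]
  have h4 : (0:ℝ) < (Fintype.card X : ℝ) := by exact_mod_cast Fintype.card_pos
  unfold tden
  rw [h2, h3, pow_add, mul_div_mul_left _ _ (by positivity)]

/-- the transfer: the inequality for the tensor square gives it for the kernel -/
theorem bip_transfer {V Ω : Type} [Fintype V] [DecidableEq V] [Fintype Ω] (side : Ω → Bool)
    (H : SimpleGraph V) [DecidableRel H.Adj] (hH : H.IsBipartite)
    (W : Ω → Ω → ℝ) (hs : ∀ x y, W x y = W y x)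
    (h0 : ∀ x y, 0 ≤ W x y) (hW : ∀ x y, side x = side y → W x y = 0)
    (hX : Nonempty (Fb side true)) (hY : Nonempty (Fb side false))
    (hkey : pden (sqK side W) ^ H.edgeFinset.card ≤ tden H (sqK side W) (sqK_symm side W)) :
    pden W ^ H.edgeFinset.card ≤ tden H W hs := by
  classical
  have hΩ : Nonempty Ω := ⟨hX.some.1⟩
  have hXp := Fintype.card_pos (α := Fb side true)
  have hYp := Fintype.card_pos (α := Fb side false)
  have hpos : 0 < (Fintype.card (Fb side true) : ℝ) * (Fintype.card (Fb side false) : ℝ) := by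
    positivity
  have hNp : 0 < (Fintype.card Ω : ℝ) := by exact_mod_cast Fintype.card_pos
  obtain ⟨c⟩ := hH
  set H' := H.induce H.support with hH'
  have hm : H'.edgeFinset.card = H.edgeFinset.card := H.card_edgeFinset_induce_support
  rw [tden_support H (sqK side W)] at hkey
  rw [tden_support H W, ← hm]
  rw [← hm] at hkey
  set q : ℝ := (∑ x : Fb side true, ∑ y : Fb side false, W x.1 y.1)
      / ((Fintype.card (Fb side true) : ℝ) * (Fintype.card (Fb side false) : ℝ)) with hq
  have hq0 : 0 ≤ q := by
    rw [hq]
    exact div_nonneg (Finset.sum_nonneg fun x _ => Finset.sum_nonneg fun y _ => h0 _ _) hpos.le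
  have hsum : ∑ x : Fb side true, ∑ y : Fb side false, W x.1 y.1
      = q * ((Fintype.card (Fb side true) : ℝ) * (Fintype.card (Fb side false) : ℝ)) := by
    rw [hq, div_mul_cancel₀ _ hpos.ne']
  have hpd : pden (sqK side W) = q ^ 2 := by rw [pden_sqK, hq]
  refine bip_core side H' (fun v => decide (c v.1 = 0)) ?_ ?_ W hs h0 hq0 ?_ ?_
  · intro u v huv
    have h2 := c.valid (show H.Adj u.1 v.1 from huv)
    intro h3
    apply h2
    have h4 : (c u.1 = 0) ↔ (c v.1 = 0) := by simpa using h3
    by_cases h5 : c u.1 = 0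
    · rw [h5, h4.1 h5]
    · have h6 : c v.1 ≠ 0 := fun h7 => h5 (h4.2 h7)
      omega
  · have h3 := card_support_le H
    rw [Nat.card_eq_fintype_card, Nat.card_eq_fintype_card, ← SimpleGraph.edgeFinset_card] at h3
    exact h3
  · unfold pden
    rw [div_mul_cancel₀ _ (by positivity), sum_sides side W hs hW, hsum]
  · intro s h
    rw [hS_mul side H' W hs s h]
    rw [hpd] at hkey
    unfold tden at hkey
    have hc : (Fintype.card (Fb side true × Fb side false) : ℝ)
        = (Fintype.card (Fb side true) : ℝ) * (Fintype.card (Fb side false) : ℝ) := by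
      rw [Fintype.card_prod]
      push_cast
      rfl
    rw [hc, le_div_iff₀ (by positivity)] at hkey
    rw [pow_mul, mul_comm]
    exact hkey

/-- the row sums of the tensor square -/
theorem sum_sqK {Ω : Type} [Fintype Ω] (side : Ω → Bool) (W : Ω → Ω → ℝ)
    (hs : ∀ x y, W x y = W y x)
    (p : Fb side true × Fb side false) :
    ∑ p', sqK side W p p' = (∑ y : Fb side false, W p.1.1 y.1) * ∑ x : Fb side true, W p.2.1 x.1
    := by
  classical
  rw [Fintype.sum_prod_type, Finset.sum_comm, Finset.sum_mul_sum]
  refine Finset.sum_congr rfl fun y _ => Finset.sum_congr rfl fun x _ => ?_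
  unfold sqK
  rw [hs x.1 p.2.1]

end Vale.Agent.P050.Opt.H322
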