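import Vale.Agent.P050.O.H322.BipCL
import Vale.Agent.P050.O.H322.BipBuilt
import Vale.Agent.P050.O.H234.RankOneFin

set_option linter.all false

/-!
Built graphs: targets close from above to the kernel of rank one with the same degrees.
-/

open Finset

namespace Vale.Agent.P050.Opt

open Vale.Agent.P050 Vale.Agent.P050.Dense

theorem clIneq_built {D : ℕ} (hD : 1 ≤ D) {V : Type} [Fintype V] [DecidableEq V]
    {H : SimpleGraph V} [DecidableRel H.Adj] (hG : Built D V H) : CLIneq D H :=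
  fun X _ _ _ η hη0 hη W hs h0 hd hK => rank1_built H hD hG hη0 hη W hs h0 hd hK

/-- built graphs, graphs `G` all of whose edges `xy` satisfy `2 e(G) ≤ (1 + c / D) d(x) d(y)` -/
theorem built_cl_graph {V Ω : Type} [Finite V] [Finite Ω] [Nonempty Ω] (H : SimpleGraph V)
    (G : SimpleGraph Ω) {D : ℕ} (hD : 1 ≤ D) (hB : Built D V H)
    (hK : ∀ x y, G.Adj x y → 2 * (Nat.card G.edgeSet : ℝ) ≤ (1 + 1 / (10 ^ 13 * (D:ℝ))) *
      (((G.neighborSet x).ncard : ℝ) * ((G.neighborSet y).ncard : ℝ))) :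
    edgeDensity G ^ Nat.card H.edgeSet ≤ homDensity H G :=
  cl_graph_of H G hD (fun {_ _ _} => clIneq_built hD hB) hK

/-- built graphs, bipartite `G` all of whose edges `xy` satisfy `e(G) ≤ (1 + c / D) d(x) d(y)` -/
theorem built_cl_bip_graph {V Ω : Type} [Finite V] [Finite Ω] [Nonempty Ω] (H : SimpleGraph V)
    (G : SimpleGraph Ω) {D : ℕ} (hD : 1 ≤ D) (hB : Built D V H) (hG : G.IsBipartite)
    (hK : ∀ x y, G.Adj x y → (Nat.card G.edgeSet : ℝ) ≤ (1 + 1 / (3 * 10 ^ 13 * (D:ℝ))) *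
      (((G.neighborSet x).ncard : ℝ) * ((G.neighborSet y).ncard : ℝ))) :
    edgeDensity G ^ Nat.card H.edgeSet ≤ homDensity H G :=
  cl_bip_graph_of H G hB.bip hD (fun {_ _ _} => clIneq_built hD hB) hG hK

end Vale.Agent.P050.Opt
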