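import Vale.Agent.P050.O.H300.SubDefs
import Vale.Agent.P050.R3.H904.ToGraph
import Mathlib.LinearAlgebra.Matrix.Symmetric

set_option linter.all false

/-!
Powers of kernels.
-/

open Finset

namespace Vale.Agent.P050.Opt

open Vale.Agent.P050 Vale.Agent.P050.Dense

/-- `W * .. * W` (`ℓ` factors), a kernel: `n ^ (1 - ℓ)` times the matrix power -/
noncomputable def kpow {X : Type} [Fintype X] [DecidableEq X] (W : X → X → ℝ) (ℓ : ℕ) (x y : X) :
    ℝ :=
  (Matrix.of W ^ ℓ) x y / (Fintype.card X : ℝ) ^ (ℓ - 1)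

/-- J1 -/
theorem kpow_symm {X : Type} [Fintype X] [DecidableEq X] {W : X → X → ℝ}
    (hs : ∀ x y, W x y = W y x) (ℓ : ℕ) (x y : X) :
    kpow W ℓ x y = kpow W ℓ y x := by
  have h1 : (Matrix.of W).transpose = Matrix.of W := by
    ext a b
    exact hs b a
  have h2 : (Matrix.of W ^ ℓ).transpose = Matrix.of W ^ ℓ := by
    rw [Matrix.transpose_pow, h1]
  unfold kpow
  congr 1
  calc (Matrix.of W ^ ℓ) x y = (Matrix.of W ^ ℓ).transpose x y := by rw [h2]
    _ = (Matrix.of W ^ ℓ) y x := rfl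

end Vale.Agent.P050.Opt
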