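import Vale.Agent.P050.O.H300.Defs
import Vale.Agent.P050.R2.H300.Basic

set_option linter.all false

/-!
Dense targets, optimal order: combinatorics of paths stored as lists, and the construction of
shapes.
-/

open MeasureTheory Finset

namespace Vale.Agent.P050.Opt

open Vale.Agent.P050 Vale.Agent.P050.Dense

namespace H322

section lists

variable {V : Type*} [Fintype V] [DecidableEq V]

lemma hd_append (a₀ w : V) (L L₀ : List V) : hd a₀ (L ++ w :: L₀) = hd w L := by
  cases L <;> rfl

lemma vs_append (a₀ w : V) (L L₀ : List V) : vs a₀ (L ++ w :: L₀) = vs w L ∪ vs a₀ L₀ := by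
  unfold vs
  ext x
  simp only [List.toFinset_append, List.toFinset_cons, Finset.mem_insert, Finset.mem_union,
    List.mem_toFinset]
  tauto

lemma hd_mem_vs (a : V) (L : List V) : hd a L ∈ vs a L := by
  cases L <;> simp [hd, vs]

lemma pv_subset_vs (a : V) (L : List V) : pv a L ⊆ vs a L := by
  cases L with
  | nil => simp [pv]
  | cons w L =>
    intro x hx
    simp only [pv, vs, Finset.mem_insert, List.mem_toFinset] at hx
    simp only [vs, Finset.mem_insert, List.mem_toFinset, List.mem_cons]
    tauto

lemma vs_eq (a : V) (L : List V) : vs a L = insert (hd a L) (pv a L) := by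
  cases L with
  | nil => simp [pv, vs, hd]
  | cons w L =>
    ext x
    simp only [pv, vs, hd, Finset.mem_insert, List.mem_toFinset, List.mem_cons,
      List.toFinset_cons]
    tauto

lemma Cons_append {a₀ w : V} {L₀ : List V} {x y : V} : ∀ {L : List V},
    Cons a₀ (L ++ w :: L₀) x y ↔ Cons w L x y ∨ (x = w ∧ y = hd a₀ L₀) ∨ Cons a₀ L₀ x y := by
  intro L
  induction L with
  | nil => simp [Cons]
  | cons u L ih =>
    rw [List.cons_append]
    show ((x = u ∧ y = hd a₀ (L ++ w :: L₀)) ∨ Cons a₀ (L ++ w :: L₀) x y) ↔ _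
    rw [ih, hd_append]
    show _ ↔ ((x = u ∧ y = hd w L) ∨ Cons w L x y) ∨ _
    tauto

variable (H : SimpleGraph V) [DecidableRel H.Adj]

lemma Wk_spec {a : V} {Λ : Finset V} : ∀ {j : ℕ} {L : List V}, L ∈ Wk H a Λ j →
    L.length = j ∧ (∀ x ∈ L, x ∈ Λ) ∧ (L ++ [a]).Nodup ∧ ∀ x y, Cons a L x y → H.Adj x y := by
  intro j
  induction j with
  | zero =>
    intro L hL
    have : L = [] := by simpa [Wk] using hL
    subst this
    simp [Cons]
  | succ j ih =>
    intro L hL
    simp only [Wk, Finset.mem_biUnion, Finset.mem_image, Finset.mem_filter,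
      Finset.mem_sdiff] at hL
    obtain ⟨L', hL', w, ⟨⟨hwΛ, hw⟩, hadj⟩, rfl⟩ := hL
    obtain ⟨h1, h2, h3, h4⟩ := ih hL'
    refine ⟨by simp [h1], ?_, ?_, ?_⟩
    · intro x hx
      rcases List.mem_cons.1 hx with rfl | hx
      · exact hwΛ
      · exact h2 x hx
    · rw [List.cons_append, List.nodup_cons]
      refine ⟨?_, h3⟩
      intro h
      apply hw
      simp only [vs, Finset.mem_insert, List.mem_toFinset]
      simp only [List.mem_append, List.mem_singleton] at h
      tauto
    · intro x y hxy
      rcases hxy with ⟨rfl, rfl⟩ | hxy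
      · exact hadj.symm
      · exact h4 x y hxy

lemma vs_card {a : V} {L : List V} (h : (L ++ [a]).Nodup) : (vs a L).card = L.length + 1 := by
  have : vs a L = (L ++ [a]).toFinset := by
    ext x
    simp only [vs, Finset.mem_insert, List.mem_toFinset, List.mem_append, List.mem_singleton]
    tauto
  rw [this, List.toFinset_card_of_nodup h]
  simp

variable (o : V → ℕ)

lemma kO_subset {O : V → Finset V} {X : Finset V} (hO : ∀ x ∈ X, O x ⊆ H.neighborFinset x)
    (a : V) : ∀ (L : List V), ∀ x ∈ X ∪ pv a L, kO H o O a L x ⊆ H.neighborFinset x := by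
  intro L
  induction L with
  | nil =>
    intro x hx
    simp only [pv, Finset.union_empty] at hx
    exact hO x hx
  | cons w L ih =>
    intro x hx
    show Function.update (kO H o O a L) (hd a L) _ x ⊆ _
    by_cases h : x = hd a L
    · subst h
      rw [Function.update_self]
      exact Finset.filter_subset _ _
    · rw [Function.update_of_ne h]
      apply ih
      simp only [pv, Finset.mem_union] at hx
      rcases hx with hx | hx
      · exact Finset.mem_union_left _ hx
      · rw [vs_eq, Finset.mem_insert] at hx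
        exact Finset.mem_union_right _ (hx.resolve_left h)

lemma mem_Cq {X : Finset V} {O : V → Finset V} {u : V} {q : Finset V × Bool} :
    q ∈ Cq X O u ↔ (∀ x ∈ q.1, x ∈ X ∧ u ∈ O x) ∧ q ≠ (∅, false) := by
  unfold Cq
  rw [Finset.mem_filter, Finset.mem_product, Finset.mem_powerset]
  constructor
  · rintro ⟨⟨h1, -⟩, h2⟩
    exact ⟨fun x hx => by simpa using h1 hx, h2⟩
  · rintro ⟨h1, h2⟩
    exact ⟨⟨fun x hx => by simpa using h1 x hx, by simp⟩, h2⟩

lemma Cq_one {X : Finset V} {O : V → Finset V} {u : V} {q : Finset V × Bool}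
    (h : q ∈ Cq X O u) : q.1.card + (if q.2 then 1 else 0) ≥ 1 := by
  obtain ⟨S, b⟩ := q
  rw [mem_Cq] at h
  cases b with
  | true => simp
  | false =>
    have h2 := h.2
    simp only [ne_eq, Prod.mk.injEq, and_true] at h2
    have : 0 < S.card := Finset.card_pos.2 (Finset.nonempty_iff_ne_empty.2 h2)
    simp only [Bool.false_eq_true, if_false, add_zero]
    omega

/-- the chords go to the vertices before the predecessor of the last vertex -/
lemma S_sub {a₀ w : V} {L₀ : List V} {O : V → Finset V} (hw : w ∉ O (hd a₀ L₀)) {L : List V}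
    {q : Finset V × Bool} (hq : q ∈ Cq (vs a₀ L₀ ∪ pv w L) (kO H o O w L) (hd w L)) :
    q.1 ⊆ pv a₀ (L ++ w :: L₀).tail := by
  rw [mem_Cq] at hq
  intro x hx
  obtain ⟨h1, h2⟩ := hq.1 x hx
  cases L with
  | nil =>
    simp only [pv, Finset.union_empty] at h1
    simp only [kO, hd] at h2
    simp only [List.nil_append, List.tail_cons]
    rw [vs_eq, Finset.mem_insert] at h1
    rcases h1 with rfl | h1
    · exact absurd h2 hw
    · exact h1
  | cons u L =>
    simp only [pv] at h1
    simp only [hd] at h2
    rw [List.cons_append, List.tail_cons]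
    have h3 : x ∈ vs a₀ (L ++ w :: L₀) := by
      rw [vs_append]
      rw [Finset.mem_union] at h1 ⊢
      tauto
    rw [vs_eq, hd_append, Finset.mem_insert] at h3
    rcases h3 with rfl | h3
    · exfalso
      change u ∈ Function.update (kO H o O w L) (hd w L) _ (hd w L) at h2
      rw [Function.update_self, Finset.mem_filter] at h2
      exact lt_irrefl _ h2.2
    · exact h3

/-- construction of shapes -/
lemma mkShape {a₀ w : V} {L₀ : List V} {O : V → Finset V} {Λ : Finset V} {j : ℕ} {L : List V}
    (hnd : (L₀ ++ [a₀]).Nodup) (hpath : ∀ x y, Cons a₀ L₀ x y → H.Adj x y)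
    (hw0 : w ∉ vs a₀ L₀) (hadj : H.Adj (hd a₀ L₀) w) (hL : L ∈ Wk H w Λ j)
    (hdis : Disjoint (vs a₀ L₀) Λ) (hO : ∀ x ∈ vs a₀ L₀, O x ⊆ H.neighborFinset x)
    (hw : w ∉ O (hd a₀ L₀)) {q : Finset V × Bool}
    (hq : q ∈ Cq (vs a₀ L₀ ∪ pv w L) (kO H o O w L) (hd w L)) {B : Option (Option V)}
    (hB : ∀ c, B = some (some c) → c ∈ (L ++ w :: L₀).tail.dropLast ∧ H.Adj a₀ c)
    (htwo : (if B = none then 0 else 1) + q.1.card + (if q.2 then 1 else 0) ≥ 2) :
    Shape H a₀ (L ++ w :: L₀) B q.1 q.2 := by
  obtain ⟨h1, h2, h3, h4⟩ := Wk_spec H hL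
  have hmem : ∀ x ∈ L₀ ++ [a₀], x ∈ vs a₀ L₀ := by
    intro x hx
    simp only [vs, Finset.mem_insert, List.mem_toFinset]
    simp only [List.mem_append, List.mem_singleton] at hx
    tauto
  refine ⟨?_, ?_, by simp, S_sub H o hw hq, ?_, hB, htwo, Cq_one hq⟩
  · rw [List.append_assoc, List.cons_append, List.nodup_append]
    rw [List.nodup_append] at h3
    refine ⟨h3.1, ?_, ?_⟩
    · rw [List.nodup_cons]
      exact ⟨fun h => hw0 (hmem w h), hnd⟩
    · intro x hx y hy
      rcases List.mem_cons.1 hy with rfl | hy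
      · exact h3.2.2 x hx y (by simp)
      · rintro rfl
        exact Finset.disjoint_left.1 hdis (hmem x hy) (h2 x hx)
  · intro x y hxy
    rw [Cons_append] at hxy
    rcases hxy with h | ⟨rfl, rfl⟩ | h
    · exact h4 x y h
    · exact hadj.symm
    · exact hpath x y h
  · intro x hx
    rw [hd_append]
    obtain ⟨h5, h6⟩ := (mem_Cq.1 hq).1 x hx
    have h7 := kO_subset H o hO w L x h5 h6
    rwa [SimpleGraph.mem_neighborFinset] at h7

end lists

section functions

variable {V : Type*} [Fintype V] [DecidableEq V] {Ω : Type*} [MeasurableSpace Ω]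
variable {U : Sym2 Ω → ℝ} {R : V → Ω → ℝ}

lemma pU_append (U : Sym2 Ω → ℝ) (a₀ w : V) (L₀ : List V) (z : V → Ω) : ∀ L : List V,
    pU U a₀ (L ++ w :: L₀) z = pU U a₀ L₀ z * U s(z (hd a₀ L₀), z w) * pU U w L z := by
  intro L
  induction L with
  | nil => simp only [List.nil_append, pU]; ring
  | cons u L ih =>
    rw [List.cons_append]
    show U s(z (hd a₀ (L ++ w :: L₀)), z u) * pU U a₀ (L ++ w :: L₀) z =
      _ * (U s(z (hd w L), z u) * pU U w L z)
    rw [ih, hd_append]
    ring

lemma bm_pU (hU : Good U 1) (a : V) (L : List V) : BM (pU U a L) := by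
  induction L with
  | nil => exact BM.const 1
  | cons w L ih => exact (bm_U hU (hd a L) w).mul ih

lemma ind_pU {a v : V} : ∀ {L : List V}, v ∉ vs a L → Ind v (pU U a L) := by
  intro L
  induction L with
  | nil => intro _ x t; rfl
  | cons w L ih =>
    intro hv x t
    have h1 : v ∉ vs a L := fun h => hv (by
      simp only [vs, Finset.mem_insert, List.mem_toFinset, List.mem_cons] at h ⊢
      tauto)
    have h2 : w ≠ v := by
      rintro rfl
      exact hv (by simp [vs])
    have h3 : hd a L ≠ v := by
      rintro rfl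
      exact h1 (hd_mem_vs a L)
    show U s(Function.update x v t (hd a L), Function.update x v t w) *
      pU U a L (Function.update x v t) = U s(x (hd a L), x w) * pU U a L x
    rw [ih h1, Function.update_of_ne h2, Function.update_of_ne h3]

lemma bm_cl (hU : Good U 1) (hR : ∀ v, BM (R v)) (u : V) (S : Finset V) (b : Bool) :
    BM (cl U R u S b) := by
  unfold cl
  refine (BM.finprod S fun x _ => bm_U hU x u).mul ?_
  cases b with
  | true => simpa using (hR u).comp (measurable_pi_apply u)
  | false => simpa using BM.const 1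

lemma ind_cl {u v : V} {S : Finset V} {b : Bool} (hu : v ≠ u) (hS : v ∉ S) :
    Ind v (cl U R u S b) := by
  intro x t
  unfold cl
  rw [Function.update_of_ne (Ne.symm hu)]
  congr 1
  refine Finset.prod_congr rfl fun c hc => ?_
  have : c ≠ v := by rintro rfl; exact hS hc
  rw [Function.update_of_ne this]

lemma bm_bf (hU : Good U 1) (hR : ∀ v, BM (R v)) (a : V) (B : Option (Option V)) :
    BM (bf U R a B) := by
  rcases B with _ | _ | c
  · exact BM.const 1
  · exact (hR a).comp (measurable_pi_apply a)
  · exact bm_U hU a c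

lemma ind_bf {a v : V} {B : Option (Option V)} (ha : v ≠ a) (hc : B ≠ some (some v)) :
    Ind v (bf U R a B) := by
  intro x t
  rcases B with _ | _ | c
  · rfl
  · show R a (Function.update x v t a) = R a (x a)
    rw [Function.update_of_ne (Ne.symm ha)]
  · show U s(Function.update x v t a, Function.update x v t c) = U s(x a, x c)
    have : c ≠ v := by rintro rfl; exact hc rfl
    rw [Function.update_of_ne (Ne.symm ha), Function.update_of_ne this]

end functions

end H322

end Vale.Agent.P050.Opt
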