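import Vale.Agent.P050.O.H322.BipTransfer

set_option linter.all false

/-!
Rows of the target which are zero do not matter.
-/

open Finset

namespace Vale.Agent.P050.Opt.H322

open Vale.Agent.P050 Vale.Agent.P050.Dense

/-- the points with a nonzero row -/
abbrev Ps {X : Type} [Fintype X] (W : X → X → ℝ) : Type := {x : X // 0 < ∑ y, W x y}

theorem eq_zero_of_row {X : Type} [Fintype X] {W : X → X → ℝ} (h0 : ∀ x y, 0 ≤ W x y) {x : X}
    (hx : ¬ 0 < ∑ y, W x y) (y : X) : W x y = 0 := by
  have h1 : ∑ y, W x y = 0 := le_antisymm (not_lt.1 hx) (Finset.sum_nonneg fun y _ => h0 x y)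
  exact (Finset.sum_eq_zero_iff_of_nonneg fun y _ => h0 x y).1 h1 y (Finset.mem_univ y)

theorem sum_Ps {X : Type} [Fintype X] {W : X → X → ℝ} (f : X → ℝ)
    (hf : ∀ x, ¬ 0 < ∑ y, W x y → f x = 0) : ∑ x, f x = ∑ x : Ps W, f x.1 := by
  classical
  rw [← Finset.sum_filter_add_sum_filter_not (univ : Finset X) (fun x => 0 < ∑ y, W x y)]
  rw [Finset.sum_eq_zero (s := univ.filter fun x => ¬ 0 < ∑ y, W x y)
    (fun x hx => hf x (Finset.mem_filter.1 hx).2), add_zero]
  exact Finset.sum_subtype _ (fun x => by simp) f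

/-- the restriction to the points with a nonzero row -/
def rst {X : Type} [Fintype X] (W : X → X → ℝ) (x y : Ps W) : ℝ := W x.1 y.1

theorem rst_symm {X : Type} [Fintype X] {W : X → X → ℝ} (hs : ∀ x y, W x y = W y x)
    (x y : Ps W) : rst W x y = rst W y x := hs _ _

theorem sum_rst_row {X : Type} [Fintype X] {W : X → X → ℝ} (hs : ∀ x y, W x y = W y x)
    (h0 : ∀ x y, 0 ≤ W x y) (x : Ps W) : ∑ y, rst W x y = ∑ y, W x.1 y := by
  rw [sum_Ps (W := W) (fun y => W x.1 y) fun y hy => by
    rw [hs]; exact eq_zero_of_row h0 hy _]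
  rfl

theorem sum_rst {X : Type} [Fintype X] {W : X → X → ℝ} (hs : ∀ x y, W x y = W y x)
    (h0 : ∀ x y, 0 ≤ W x y) : ∑ x, ∑ y, rst W x y = ∑ x, ∑ y, W x y := by
  rw [sum_Ps (W := W) (fun x => ∑ y, W x y) fun x hx =>
    Finset.sum_eq_zero fun y _ => eq_zero_of_row h0 hx y]
  exact Finset.sum_congr rfl fun x _ => sum_rst_row hs h0 x

/-- the homomorphism sum only sees the points with a nonzero row -/
theorem sum_hom_rst {V X : Type} [Fintype V] [DecidableEq V] [Fintype X] (H : SimpleGraph V)
    [DecidableRel H.Adj] (hiso : ∀ v, ∃ w, H.Adj v w) {W : X → X → ℝ}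
    (hs : ∀ x y, W x y = W y x) (h0 : ∀ x y, 0 ≤ W x y) :
    ∑ z : V → X, ∏ e ∈ H.edgeFinset, ev W hs z e
      = ∑ z : V → Ps W, ∏ e ∈ H.edgeFinset, ev (rst W) (rst_symm hs) z e := by
  classical
  symm
  refine Finset.sum_of_injOn (fun z v => (z v).1) ?_ ?_ ?_ ?_
  · intro z _ z' _ h
    funext v
    exact Subtype.ext (congrFun h v)
  · intro z _
    exact Finset.mem_coe.2 (Finset.mem_univ _)
  · intro z _ hz
    -- some value has a zero row
    have h1 : ∃ v, ¬ 0 < ∑ y, W (z v) y := by
      by_contra h2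
      push Not at h2
      apply hz
      rw [Set.mem_image]
      exact ⟨fun v => ⟨z v, h2 v⟩, Finset.mem_coe.2 (Finset.mem_univ _), rfl⟩
    obtain ⟨v, hv⟩ := h1
    obtain ⟨w, hw⟩ := hiso v
    refine Finset.prod_eq_zero (i := s(v, w)) (by
      rw [SimpleGraph.mem_edgeFinset, SimpleGraph.mem_edgeSet]; exact hw) ?_
    show W (z v) (z w) = 0
    exact eq_zero_of_row h0 hv _
  · intro z _
    refine Finset.prod_congr rfl fun e _ => ?_
    induction e using Sym2.ind with
    | _ u v => rfl

/-- graphs without edges -/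
theorem tden_edgeless {V X : Type} [Fintype V] [DecidableEq V] [Fintype X] [Nonempty X]
    (H : SimpleGraph V) [DecidableRel H.Adj] (hm : H.edgeFinset.card = 0) (W : X → X → ℝ)
    (hs : ∀ x y, W x y = W y x) : tden H W hs = 1 := by
  have hE : H.edgeFinset = ∅ := Finset.card_eq_zero.1 hm
  have h4 : (0:ℝ) < (Fintype.card X : ℝ) := by exact_mod_cast Fintype.card_pos
  unfold tden
  rw [hE]
  simp only [Finset.prod_empty, Finset.sum_const, Finset.card_univ, Fintype.card_fun,
    nsmul_eq_mul, mul_one]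
  push_cast
  rw [div_self (by positivity)]

/-- **Zero rows of the target are free.** -/
theorem pos_rows {V X : Type} [Fintype V] [DecidableEq V] [Fintype X] [Nonempty X]
    (H : SimpleGraph V) [DecidableRel H.Adj] (W : X → X → ℝ) (hs : ∀ x y, W x y = W y x)
    (h0 : ∀ x y, 0 ≤ W x y)
    (h : Nonempty (Ps W) →
      pden (rst W) ^ H.edgeFinset.card ≤ tden H (rst W) (rst_symm hs)) :
    pden W ^ H.edgeFinset.card ≤ tden H W hs := by
  classical
  rcases Nat.eq_zero_or_pos H.edgeFinset.card with hm | hm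
  · rw [tden_edgeless H hm, hm, pow_zero]
  rcases isEmpty_or_nonempty (Ps W) with hE | hN
  · have h1 : pden W = 0 := by
      unfold pden
      rw [← sum_rst hs h0]
      simp
    rw [h1, zero_pow hm.ne']
    unfold tden
    refine div_nonneg (Finset.sum_nonneg fun z _ => Finset.prod_nonneg fun e _ => ?_)
      (by positivity)
    induction e using Sym2.ind with
    | _ u v => exact h0 _ _
  · have hkey := h hN
    set H' := H.induce H.support with hH'
    have hm' : H'.edgeFinset.card = H.edgeFinset.card := H.card_edgeFinset_induce_support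
    rw [tden_support H (rst W), ← hm'] at hkey
    rw [tden_support H W, ← hm']
    have hiso : ∀ v : H.support, ∃ w, H'.Adj v w := by
      intro v
      obtain ⟨w, hw⟩ := H.mem_support.1 v.2
      exact ⟨⟨w, H.mem_support.2 ⟨v.1, hw.symm⟩⟩, hw⟩
    have hnm : Fintype.card ↥H.support ≤ 2 * H'.edgeFinset.card := by
      have h3 := card_support_le H
      rw [Nat.card_eq_fintype_card, Nat.card_eq_fintype_card, ← SimpleGraph.edgeFinset_card] at h3
      exact h3
    set n := Fintype.card ↥H.support with hn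
    set m := H'.edgeFinset.card with hmm
    set N : ℝ := (Fintype.card X : ℝ) with hNN
    set M : ℝ := (Fintype.card (Ps W) : ℝ) with hMM
    have hNp : 0 < N := by rw [hNN]; exact_mod_cast Fintype.card_pos
    have hMp : 0 < M := by rw [hMM]; exact_mod_cast Fintype.card_pos
    have hMN : M ≤ N := by
      rw [hMM, hNN]
      exact_mod_cast Fintype.card_subtype_le _
    have hρ0 : 0 ≤ M / N := by positivity
    have hρ1 : M / N ≤ 1 := (div_le_one hNp).2 hMN
    have e1 : pden W = pden (rst W) * (M / N) ^ 2 := by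
      unfold pden
      rw [sum_rst hs h0]
      rw [← hMM, ← hNN]
      field_simp
    have e2 : tden H' W hs = tden H' (rst W) (rst_symm hs) * (M / N) ^ n := by
      unfold tden
      rw [sum_hom_rst H' hiso hs h0]
      rw [← hMM, ← hNN, ← hn, div_pow]
      field_simp
    have h5 : 0 ≤ pden (rst W) := by
      unfold pden
      exact div_nonneg (Finset.sum_nonneg fun x _ => Finset.sum_nonneg fun y _ => h0 _ _)
        (by positivity)
    rw [e1, e2, mul_pow, ← pow_mul]
    exact mul_le_mul hkey (pow_le_pow_of_le_one hρ0 hρ1 hnm) (by positivity)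
      ((pow_nonneg h5 _).trans hkey)

end Vale.Agent.P050.Opt.H322
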