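import Vale.Agent.P050.O.H322.BipCL

set_option linter.all false

/-!
Blocks of powers.
-/

open Finset

namespace Vale.Agent.P050.Opt.H322

open Vale.Agent.P050 Vale.Agent.P050.Dense Vale.Agent.P050.Opt

section

variable {X : Type} [Fintype X] [DecidableEq X]

/-- joined by a walk -/
def BB (A : Matrix X X ℝ) (x y : X) : Prop := ∃ j : ℕ, 0 < (A ^ j) x y

/-- joined by a walk of even length -/
def EE (A : Matrix X X ℝ) (x y : X) : Prop := ∃ j : ℕ, 0 < (A ^ (2 * j)) x y

variable {A : Matrix X X ℝ}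

theorem pow_nn (h0 : ∀ x y, 0 ≤ A x y) (k : ℕ) : ∀ x y, 0 ≤ (A ^ k) x y := by
  induction k with
  | zero =>
    intro x y
    rw [pow_zero, Matrix.one_apply]
    split_ifs <;> norm_num
  | succ k ih =>
    intro x y
    rw [pow_succ, Matrix.mul_apply]
    exact Finset.sum_nonneg fun z _ => mul_nonneg (ih _ _) (h0 _ _)

theorem pow_sym (hs : ∀ x y, A x y = A y x) (k : ℕ) (x y : X) : (A ^ k) x y = (A ^ k) y x := by
  have h1 : A.transpose = A := by
    ext a b
    exact hs b a
  have h2 : (A ^ k).transpose = A ^ k := by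
    rw [Matrix.transpose_pow, h1]
  calc (A ^ k) x y = (A ^ k).transpose x y := by rw [h2]
    _ = (A ^ k) y x := rfl

theorem pow_trans (h0 : ∀ x y, 0 ≤ A x y) {i j : ℕ} {x y z : X} (h1 : 0 < (A ^ i) x y)
    (h2 : 0 < (A ^ j) y z) : 0 < (A ^ (i + j)) x z := by
  rw [pow_add, Matrix.mul_apply]
  exact Finset.sum_pos' (fun w _ => mul_nonneg (pow_nn h0 _ _ _) (pow_nn h0 _ _ _))
    ⟨y, Finset.mem_univ _, mul_pos h1 h2⟩

theorem EE.refl (x : X) : EE A x x := ⟨0, by simp⟩

theorem EE.symm (hs : ∀ x y, A x y = A y x) {x y : X} (h : EE A x y) : EE A y x := by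
  obtain ⟨j, hj⟩ := h
  exact ⟨j, by rw [pow_sym hs]; exact hj⟩

theorem EE.trans (h0 : ∀ x y, 0 ≤ A x y) {x y z : X} (h : EE A x y) (h' : EE A y z) :
    EE A x z := by
  obtain ⟨i, hi⟩ := h
  obtain ⟨j, hj⟩ := h'
  refine ⟨i + j, ?_⟩
  have := pow_trans h0 hi hj
  rwa [← mul_add] at this

/-- two odd walks give an even walk -/
theorem ee_of_odd (h0 : ∀ x y, 0 ≤ A x y) {i j : ℕ} (hi : Odd i) (hj : Odd j) {x y z : X}
    (h1 : 0 < (A ^ i) x y) (h2 : 0 < (A ^ j) y z) : EE A x z := by
  obtain ⟨r, rfl⟩ := hi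
  obtain ⟨s, rfl⟩ := hj
  refine ⟨r + s + 1, ?_⟩
  have := pow_trans h0 h1 h2
  rwa [show 2 * r + 1 + (2 * s + 1) = 2 * (r + s + 1) by ring] at this

theorem odd_of_not_ee {x y : X} (h : BB A x y) (h' : ¬ EE A x y) :
    ∃ i, Odd i ∧ 0 < (A ^ i) x y := by
  obtain ⟨i, hi⟩ := h
  rcases Nat.even_or_odd i with he | ho
  · exfalso
    obtain ⟨r, rfl⟩ := he
    exact h' ⟨r, by rwa [two_mul]⟩
  · exact ⟨i, ho, hi⟩

end

/-- one class -/
theorem block_one {D : ℕ} {V : Type} [Fintype V] [DecidableEq V] {H : SimpleGraph V}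
    [DecidableRel H.Adj] (hcl : CLIneq D H) {X : Type} [Fintype X] [Nonempty X] {η : ℝ}
    (hη0 : 0 ≤ η) (hη : 10 ^ 13 * (D:ℝ) * η ≤ 1) (W : X → X → ℝ) (hs : ∀ x y, W x y = W y x)
    (h0 : ∀ x y, 0 ≤ W x y)
    (hcross : ∀ x a y b, W x y * W a b ≤ (1 + η) * (W x b * W a y)) :
    pden W ^ H.edgeFinset.card ≤ tden H W hs := by
  refine hcl.all hη0 hη W hs h0 fun x y => ?_
  calc W x y * (∑ a, ∑ b, W a b) = ∑ a, ∑ b, W x y * W a b := by
        rw [Finset.mul_sum]
        exact Finset.sum_congr rfl fun a _ => Finset.mul_sum _ _ _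
    _ ≤ ∑ a, ∑ b, (1 + η) * (W x b * W a y) :=
        Finset.sum_le_sum fun a _ => Finset.sum_le_sum fun b _ => hcross x a y b
    _ = (1 + η) * ((∑ b, W x b) * ∑ b, W y b) := by
        rw [Finset.sum_mul_sum, Finset.mul_sum, Finset.sum_comm]
        refine Finset.sum_congr rfl fun a _ => ?_
        rw [Finset.mul_sum]
        refine Finset.sum_congr rfl fun b _ => ?_
        rw [hs b y]

/-- two classes -/
theorem block_two {D : ℕ} {V : Type} [Fintype V] [DecidableEq V] {H : SimpleGraph V}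
    [DecidableRel H.Adj] (hH : H.IsBipartite) (hcl : CLIneq D H) (hD : 1 ≤ D) {X : Type}
    [Fintype X] [Nonempty X] {η : ℝ} (hη0 : 0 ≤ η) (hη : 3 * 10 ^ 13 * (D:ℝ) * η ≤ 1)
    (side : X → Bool) (W : X → X → ℝ) (hs : ∀ x y, W x y = W y x) (h0 : ∀ x y, 0 ≤ W x y)
    (hW : ∀ x y, side x = side y → W x y = 0)
    (hcross : ∀ x a y b, side x = side a → side y = side b →
      W x y * W a b ≤ (1 + η) * (W x b * W a y)) :
    pden W ^ H.edgeFinset.card ≤ tden H W hs := by
  classical
  refine hcl.bip hH hD hη0 hη side W hs h0 hW fun x y => ?_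
  have hr : ∀ z, 0 ≤ ∑ b, W z b := fun z => Finset.sum_nonneg fun b _ => h0 z b
  by_cases hxy : side x = side y
  · rw [hW x y hxy, zero_mul]
    exact mul_nonneg (by linarith) (mul_nonneg (hr x) (hr y))
  · -- half of the total is the sum over the pairs with the sides of `x` and `y`
    have hb2 : ∀ p q r s : Bool, p ≠ q → r ≠ s → p = r → q = s := by decide
    have hb3 : ∀ p q r : Bool, p ≠ q → p ≠ r → q = r := by decide
    have hhalf : (∑ a, ∑ b, W a b) / 2 =
        ∑ a, ∑ b, (if side x = side a ∧ side y = side b then W a b else 0) := by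
      have h1 : ∀ a b, W a b = (if side x = side a ∧ side y = side b then W a b else 0) +
          (if side x = side b ∧ side y = side a then W b a else 0) := by
        intro a b
        by_cases hab : side a = side b
        · rw [hW a b hab, hW b a hab.symm]
          simp
        · by_cases h2 : side x = side a
          · have h3 : side y = side b := hb2 _ _ _ _ hxy hab h2
            rw [if_pos ⟨h2, h3⟩, if_neg (fun h => hab (h2.symm.trans h.1)), add_zero]
          · have h3 : side x = side b := hb3 (side a) _ _ (Ne.symm h2) hab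
            have h4 : side y = side a := hb3 (side x) _ _ hxy h2
            rw [if_neg (fun h => h2 h.1), if_pos ⟨h3, h4⟩, zero_add]
            exact hs a b
      have h6 : ∑ a, ∑ b, W a b =
          (∑ a, ∑ b, (if side x = side a ∧ side y = side b then W a b else 0)) +
          ∑ a, ∑ b, (if side x = side b ∧ side y = side a then W b a else 0) := by
        rw [← Finset.sum_add_distrib]
        refine Finset.sum_congr rfl fun a _ => ?_
        rw [← Finset.sum_add_distrib]
        exact Finset.sum_congr rfl fun b _ => h1 a b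
      have h7 : ∑ a, ∑ b, (if side x = side b ∧ side y = side a then W b a else 0) =
          ∑ a, ∑ b, (if side x = side a ∧ side y = side b then W a b else 0) :=
        Finset.sum_comm
      rw [h6, h7]
      ring
    rw [hhalf]
    calc W x y * (∑ a, ∑ b, (if side x = side a ∧ side y = side b then W a b else 0))
        = ∑ a, ∑ b, W x y * (if side x = side a ∧ side y = side b then W a b else 0) := by
          rw [Finset.mul_sum]
          exact Finset.sum_congr rfl fun a _ => Finset.mul_sum _ _ _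
      _ ≤ ∑ a, ∑ b, (1 + η) * (W x b * W a y) := by
          refine Finset.sum_le_sum fun a _ => Finset.sum_le_sum fun b _ => ?_
          split_ifs with h
          · exact hcross x a y b h.1 h.2
          · rw [mul_zero]
            exact mul_nonneg (by linarith) (mul_nonneg (h0 _ _) (h0 _ _))
      _ = (1 + η) * ((∑ b, W x b) * ∑ b, W y b) := by
          rw [Finset.sum_mul_sum, Finset.mul_sum, Finset.sum_comm]
          refine Finset.sum_congr rfl fun a _ => ?_
          rw [Finset.mul_sum]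
          refine Finset.sum_congr rfl fun b _ => ?_
          rw [hs b y]

/-- blocks, even case -/
theorem pow_block_even {D : ℕ} {V : Type} [Fintype V] [DecidableEq V] {H : SimpleGraph V}
    [DecidableRel H.Adj] (hcl : CLIneq D H) {X ι : Type} [Fintype X] [DecidableEq X]
    [DecidableEq ι] {η : ℝ} (hη0 : 0 ≤ η) (hη : 10 ^ 13 * (D:ℝ) * η ≤ 1) (A : Matrix X X ℝ)
    (W : X → X → ℝ) (hs : ∀ x y, W x y = W y x) (h0 : ∀ x y, 0 ≤ W x y)
    (hcross : ∀ x a y b, EE A x a → EE A y b → W x y * W a b ≤ (1 + η) * (W x b * W a y))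
    (b : X → ι) (hb : ∀ x y, b x = b y → EE A x y) (i : ι) [Nonempty {x // b x = i}] :
    pden (fun x y : {x // b x = i} => W x.1 y.1) ^ H.edgeFinset.card ≤
      tden H (fun x y : {x // b x = i} => W x.1 y.1) (fun x y => hs x.1 y.1) := by
  refine block_one hcl hη0 hη _ _ (fun x y => h0 _ _) fun x a y c => ?_
  exact hcross _ _ _ _ (hb _ _ (x.2.trans a.2.symm)) (hb _ _ (y.2.trans c.2.symm))

/-- blocks, odd case -/
theorem pow_block_odd {D : ℕ} {V : Type} [Fintype V] [DecidableEq V] {H : SimpleGraph V}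
    [DecidableRel H.Adj] (hH : H.IsBipartite) (hcl : CLIneq D H) (hD : 1 ≤ D)
    {X ι : Type} [Fintype X] [DecidableEq X] [DecidableEq ι] {η : ℝ} (hη0 : 0 ≤ η)
    (hη : 3 * 10 ^ 13 * (D:ℝ) * η ≤ 1) (A : Matrix X X ℝ) (hsA : ∀ x y, A x y = A y x)
    (h0A : ∀ x y, 0 ≤ A x y) {k : ℕ} (hk : Odd k)
    (W : X → X → ℝ) (hs : ∀ x y, W x y = W y x) (h0 : ∀ x y, 0 ≤ W x y)
    (hWk : ∀ x y, (A ^ k) x y = 0 → W x y = 0)
    (hcross : ∀ x a y b, EE A x a → EE A y b → W x y * W a b ≤ (1 + η) * (W x b * W a y))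
    (b : X → ι) (hb : ∀ x y, b x = b y → BB A x y) (i : ι) [hne : Nonempty {x // b x = i}] :
    pden (fun x y : {x // b x = i} => W x.1 y.1) ^ H.edgeFinset.card ≤
      tden H (fun x y : {x // b x = i} => W x.1 y.1) (fun x y => hs x.1 y.1) := by
  classical
  have hη' : 10 ^ 13 * (D:ℝ) * η ≤ 1 := by
    have h1 : 0 ≤ 10 ^ 13 * (D:ℝ) * η := by positivity
    linarith
  by_cases hall : ∀ x y : {x // b x = i}, EE A x.1 y.1
  · refine block_one hcl hη0 hη' _ _ (fun x y => h0 _ _) fun x a y c => ?_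
    exact hcross _ _ _ _ (hall _ _) (hall _ _)
  · push Not at hall
    obtain ⟨x0, x1, h01⟩ := hall
    have hBB : ∀ x y : {x // b x = i}, BB A x.1 y.1 := fun x y => hb _ _ (x.2.trans y.2.symm)
    obtain ⟨q, hq, hq1⟩ := odd_of_not_ee (hBB x0 x1) h01
    -- the classes
    have hcls : ∀ x y : {x // b x = i}, decide (EE A x0.1 x.1) = decide (EE A x0.1 y.1) →
        EE A x.1 y.1 := by
      intro x y h
      by_cases hx : EE A x0.1 x.1
      · have hy : EE A x0.1 y.1 := by
          have h2 : decide (EE A x0.1 y.1) = true := by rw [← h]; exact decide_eq_true hx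
          exact of_decide_eq_true h2
        exact (hx.symm hsA).trans h0A hy
      · have hy : ¬ EE A x0.1 y.1 := by
          have h2 : decide (EE A x0.1 y.1) = false := by rw [← h]; exact decide_eq_false hx
          exact of_decide_eq_false h2
        obtain ⟨r, hr, hr1⟩ := odd_of_not_ee (hBB x0 x) hx
        obtain ⟨s, hs', hs1⟩ := odd_of_not_ee (hBB x0 y) hy
        refine ee_of_odd h0A hr hs' (y := x0.1) ?_ hs1
        rw [pow_sym hsA]
        exact hr1
    refine block_two hH hcl hD hη0 hη (fun x => decide (EE A x0.1 x.1)) _ _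
      (fun x y => h0 _ _) (fun x y h => ?_) (fun x a y c h h' => ?_)
    · -- no odd walk inside a class
      by_contra hne'
      have hA : (A ^ k) x.1 y.1 ≠ 0 := fun h => hne' (hWk _ _ h)
      have hA' : 0 < (A ^ k) x.1 y.1 := lt_of_le_of_ne (pow_nn h0A _ _ _) (Ne.symm hA)
      have hxy := hcls x y h
      -- an odd closed walk at x
      obtain ⟨r, hr⟩ := hxy.symm hsA
      have hodd : 0 < (A ^ (k + 2 * r)) x.1 x.1 := pow_trans h0A hA' hr
      have hko : Odd (k + 2 * r) := hk.add_even (even_two_mul r)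
      -- an odd closed walk at x0
      obtain ⟨p, hp⟩ := hBB x0 x
      have hcl0 : 0 < (A ^ (p + (k + 2 * r) + p)) x0.1 x0.1 := by
        refine pow_trans h0A (pow_trans h0A hp hodd) ?_
        rw [pow_sym hsA]
        exact hp
      have hpo : Odd (p + (k + 2 * r) + p) := by
        have : p + (k + 2 * r) + p = (k + 2 * r) + 2 * p := by ring
        rw [this]
        exact hko.add_even (even_two_mul p)
      exact h01 (ee_of_odd h0A hpo hq hcl0 hq1)
    · exact hcross _ _ _ _ (hcls _ _ h) (hcls _ _ h')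

end Vale.Agent.P050.Opt.H322
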