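import Mathlib.Combinatorics.SimpleGraph.Walk.Counting
import Mathlib.Combinatorics.SimpleGraph.Connectivity.Connected
import Mathlib.Combinatorics.SimpleGraph.Paths
import Mathlib.Analysis.Real.Sqrt

set_option linter.all false

/-!
Even walks in small graphs.
-/

open Finset

namespace Vale.Agent.P050.Opt.H322

/-- two steps in `G` -/
def two {X : Type} (G : SimpleGraph X) : SimpleGraph X :=
  SimpleGraph.fromRel fun a b => ∃ c, G.Adj a c ∧ G.Adj c b

theorem two_reach {X : Type} (G : SimpleGraph X) : ∀ (m : ℕ) (x y : X) (q : G.Walk x y),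
    q.length = 2 * m → (two G).Reachable x y := by
  intro m
  induction m with
  | zero =>
    intro x y q hq
    have := SimpleGraph.Walk.eq_of_length_eq_zero (by simpa using hq)
    subst this
    exact SimpleGraph.Reachable.refl _
  | succ m ih =>
    intro x y q hq
    cases q with
    | nil => simp at hq
    | cons h q =>
      cases q with
      | nil => simp at hq; omega
      | cons h' q =>
        rename_i u v
        have hl : q.length = 2 * m := by
          simp only [SimpleGraph.Walk.length_cons] at hq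
          omega
        refine SimpleGraph.Reachable.trans ?_ (ih _ _ q hl)
        by_cases hxv : x = v
        · subst hxv
          exact SimpleGraph.Reachable.refl _
        · exact SimpleGraph.Adj.reachable
            ((SimpleGraph.fromRel_adj _ _ _).mpr ⟨hxv, Or.inl ⟨u, h, h'⟩⟩)

theorem two_walk {X : Type} (G : SimpleGraph X) {x y : X} (p : (two G).Walk x y) :
    ∃ q : G.Walk x y, q.length = 2 * p.length := by
  induction p with
  | nil => exact ⟨SimpleGraph.Walk.nil, rfl⟩
  | cons h p ih =>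
    obtain ⟨q, hq⟩ := ih
    rw [two, SimpleGraph.fromRel_adj] at h
    rcases h.2 with ⟨c, h1, h2⟩ | ⟨c, h1, h2⟩
    · refine ⟨SimpleGraph.Walk.cons h1 (SimpleGraph.Walk.cons h2 q), ?_⟩
      simp only [SimpleGraph.Walk.length_cons]
      omega
    · refine ⟨SimpleGraph.Walk.cons h2.symm (SimpleGraph.Walk.cons h1.symm q), ?_⟩
      simp only [SimpleGraph.Walk.length_cons]
      omega

theorem small_walks {X : Type} [Finite X] (G : SimpleGraph X) {n : ℕ} (hn : Nat.card X ≤ n)
    {x y : X} (h : ∃ q : G.Walk x y, Even q.length ∧ q.length ≠ 0) :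
    ∃ q : G.Walk x y, q.length = 2 * n := by
  classical
  haveI := Fintype.ofFinite X
  obtain ⟨q, he, h0⟩ := h
  -- a neighbour of `x`
  obtain ⟨w, hw⟩ : ∃ w, G.Adj x w := by
    cases q with
    | nil => simp at h0
    | cons h q => exact ⟨_, h⟩
  obtain ⟨m, hm⟩ := he
  obtain ⟨p, hp⟩ := (two_reach G m x y q (by omega)).exists_isPath
  have hlt : p.length < Fintype.card X := hp.length_lt
  rw [Nat.card_eq_fintype_card] at hn
  obtain ⟨q1, hq1⟩ := two_walk G p
  have key : ∀ k : ℕ, ∃ r : G.Walk x y, r.length = 2 * (p.length + k) := by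
    intro k
    induction k with
    | zero => exact ⟨q1, by rw [hq1, Nat.add_zero]⟩
    | succ k ih =>
      obtain ⟨r, hr⟩ := ih
      refine ⟨SimpleGraph.Walk.cons hw (SimpleGraph.Walk.cons hw.symm r), ?_⟩
      simp only [SimpleGraph.Walk.length_cons]
      omega
  obtain ⟨r, hr⟩ := key (n - p.length)
  exact ⟨r, by rw [hr]; congr 1; omega⟩

theorem small_hyp (n : ℕ) (hn : 1 ≤ n) : ∃ δ : ℝ, 0 < δ ∧ ∀ (X : Type) [Finite X] [Nonempty X]
    (G : SimpleGraph X), Nat.card X ≤ n →
    ∀ x y, (∃ q : G.Walk x y, Even q.length ∧ q.length ≠ 0) →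
      δ * (Nat.card X : ℝ) ^ (2 * n - 1) ≤ Nat.card {q : G.Walk x y // q.length = 2 * n} := by
  have hn0 : (0:ℝ) < (n:ℝ) := by exact_mod_cast hn
  refine ⟨((n:ℝ) ^ (2 * n - 1))⁻¹, inv_pos.mpr (pow_pos hn0 _), ?_⟩
  intro X _ _ G hX x y h
  classical
  haveI := Fintype.ofFinite X
  haveI : Finite {q : G.Walk x y // q.length = 2 * n} := inferInstance
  have h1 : 1 ≤ Nat.card {q : G.Walk x y // q.length = 2 * n} := by
    obtain ⟨q, hq⟩ := small_walks G hX h
    haveI : Nonempty {q : G.Walk x y // q.length = 2 * n} := ⟨⟨q, hq⟩⟩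
    exact Nat.card_pos
  have h2 : ((n:ℝ) ^ (2 * n - 1))⁻¹ * (Nat.card X : ℝ) ^ (2 * n - 1) ≤ 1 := by
    rw [inv_mul_le_iff₀ (pow_pos hn0 _), mul_one]
    exact pow_le_pow_left₀ (Nat.cast_nonneg _) (by exact_mod_cast hX) _
  refine h2.trans ?_
  exact_mod_cast h1

end Vale.Agent.P050.Opt.H322
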