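import Vale.Agent.P050.R3.H904.ToGraph
import Mathlib.Analysis.MeanInequalitiesPow
import Mathlib.Combinatorics.SimpleGraph.Acyclic

set_option linter.all false

/-!
Block diagonal kernels.
-/

open Finset

namespace Vale.Agent.P050.Opt.H322

open Vale.Agent.P050 Vale.Agent.P050.Dense

theorem hom_blocks {V X ι : Type} [Fintype V] [DecidableEq V] [Nonempty V] [Fintype X]
    [Fintype ι] [DecidableEq ι] (b : X → ι) (f : (V → X) → ℝ) (hf : ∀ z, 0 ≤ f z) :
    ∑ i, ∑ z : V → {x // b x = i}, f (fun v => (z v).1) ≤ ∑ z, f z := by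
  classical
  obtain ⟨v0⟩ := ‹Nonempty V›
  rw [← Fintype.sum_fiberwise (fun z : V → X => b (z v0)) f]
  refine Finset.sum_le_sum fun i _ => ?_
  -- an injection
  let φ : (V → {x // b x = i}) → {z : V → X // b (z v0) = i} := fun z =>
    ⟨fun v => (z v).1, (z v0).2⟩
  have hφ : Function.Injective φ := by
    intro z z' h
    funext v
    exact Subtype.ext (congrFun (congrArg Subtype.val h) v)
  calc ∑ z : V → {x // b x = i}, f (fun v => (z v).1) = ∑ z : V → {x // b x = i}, f (φ z).1 := rfl
    _ = ∑ y ∈ univ.map ⟨φ, hφ⟩, f y.1 := by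
        rw [Finset.sum_map]
        rfl
    _ ≤ ∑ y : {z : V → X // b (z v0) = i}, f y.1 :=
        Finset.sum_le_sum_of_subset_of_nonneg (Finset.subset_univ _) fun y _ _ => hf _

theorem sum_blocks {V X ι : Type} [Fintype V] [DecidableEq V] [Fintype X] [Nonempty X]
    [Fintype ι] [DecidableEq ι] (H : SimpleGraph V) [DecidableRel H.Adj] (hc : H.Connected)
    (W : X → X → ℝ) (hs : ∀ x y, W x y = W y x) (h0 : ∀ x y, 0 ≤ W x y) (b : X → ι)
    (hb : ∀ x y, b x ≠ b y → W x y = 0)
    (hblk : ∀ i, Nonempty {x // b x = i} →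
      pden (fun x y : {x // b x = i} => W x.1 y.1) ^ H.edgeFinset.card ≤
        tden H (fun x y : {x // b x = i} => W x.1 y.1) (fun x y => hs x.1 y.1)) :
    pden W ^ H.edgeFinset.card ≤ tden H W hs := by
  classical
  haveI : Nonempty V := hc.nonempty
  set m := H.edgeFinset.card with hm
  set v := Fintype.card V with hv
  have hvm : v ≤ m + 1 := by
    have h := hc.card_vert_le_card_edgeSet_add_one
    rw [Nat.card_eq_fintype_card, Nat.card_eq_fintype_card, ← SimpleGraph.edgeFinset_card] at h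
    exact h
  obtain ⟨e, he⟩ := Nat.exists_eq_add_of_le hvm
  have hv1 : 1 ≤ v := Fintype.card_pos
  have hn : (0:ℝ) < Fintype.card X := by exact_mod_cast Fintype.card_pos
  set n : ℝ := (Fintype.card X : ℝ) with hn'
  let N : ι → ℝ := fun i => (Fintype.card {x // b x = i} : ℝ)
  let T : ι → ℝ := fun i => ∑ x : {x // b x = i}, ∑ y : {x // b x = i}, W x.1 y.1
  have hN0 : ∀ i, 0 ≤ N i := fun i => Nat.cast_nonneg _
  have hT0 : ∀ i, 0 ≤ T i := fun i =>
    Finset.sum_nonneg fun x _ => Finset.sum_nonneg fun y _ => h0 _ _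
  have hNn : ∀ i, N i ≤ n := fun i => by
    show (Fintype.card {x // b x = i} : ℝ) ≤ Fintype.card X
    exact_mod_cast Fintype.card_subtype_le _
  have hNsum : ∑ i, N i = n := by
    have h := Fintype.sum_fiberwise b (fun _ : X => (1:ℝ))
    simp only [Finset.sum_const, Finset.card_univ, nsmul_eq_mul, mul_one] at h
    exact h
  have hTsum : ∑ i, T i = ∑ x, ∑ y, W x y := by
    rw [← Fintype.sum_fiberwise b (fun x : X => ∑ y, W x y)]
    refine Finset.sum_congr rfl fun i _ => Finset.sum_congr rfl fun x _ => ?_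
    rw [← Fintype.sum_fiberwise b (fun y : X => W x.1 y), Finset.sum_eq_single i]
    · intro j _ hj
      refine Finset.sum_eq_zero fun y _ => hb _ _ ?_
      rw [x.2, y.2]
      exact Ne.symm hj
    · intro h
      exact absurd (Finset.mem_univ _) h
  have hTN : ∀ i, N i = 0 → T i = 0 := by
    intro i hi
    have h1 : Fintype.card {x // b x = i} = 0 := by
      have h2 : ((Fintype.card {x // b x = i} : ℕ) : ℝ) = 0 := hi
      exact_mod_cast h2
    haveI := Fintype.card_eq_zero_iff.mp h1
    exact Finset.sum_of_isEmpty _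
  -- the number of homomorphisms
  let h : ι → ℝ := fun i => ∑ z : V → {x // b x = i}, ∏ e ∈ H.edgeFinset,
    ev (fun x y : {x // b x = i} => W x.1 y.1) (fun x y => hs x.1 y.1) z e
  have hhom : ∑ i, h i ≤ ∑ z : V → X, ∏ e ∈ H.edgeFinset, ev W hs z e := by
    have hev : ∀ (z : V → X) (e : Sym2 V), 0 ≤ ev W hs z e := by
      intro z e
      induction e using Sym2.ind with
      | _ x y => exact h0 _ _
    refine le_trans (le_of_eq ?_) (hom_blocks b (fun z : V → X => ∏ e ∈ H.edgeFinset, ev W hs z e)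
      fun z => Finset.prod_nonneg fun e _ => hev z e)
    refine Finset.sum_congr rfl fun i _ => Finset.sum_congr rfl fun z _ =>
      Finset.prod_congr rfl fun e _ => ?_
    induction e using Sym2.ind with
    | _ x y => rfl
  have hterm : ∀ i, n ^ v / n ^ m * (N i / n * (T i / N i) ^ m) ≤ h i := by
    intro i
    rcases (hN0 i).eq_or_lt with hi | hi
    · rw [← hi, zero_div, zero_mul, mul_zero]
      refine Finset.sum_nonneg fun z _ => Finset.prod_nonneg fun e _ => ?_
      induction e using Sym2.ind with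
      | _ x y => exact h0 _ _
    · have hne : Nonempty {x // b x = i} := by
        rw [← Fintype.card_pos_iff]
        have h2 : (0:ℝ) < ((Fintype.card {x // b x = i} : ℕ) : ℝ) := hi
        exact_mod_cast h2
      have h1 := hblk i hne
      have h2 : (T i / N i ^ 2) ^ m ≤ h i / N i ^ v := h1
      rw [le_div_iff₀ (pow_pos hi _)] at h2
      refine le_trans ?_ h2
      have h3 : (T i / N i ^ 2) ^ m = (T i / N i) ^ m / N i ^ m := by
        rw [← div_pow, div_div, pow_two]
      rw [h3]
      have h4 : n ^ v / n ^ m * (N i / n) ≤ N i ^ v / N i ^ m := by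
        rw [div_mul_div_comm, div_le_div_iff₀ (by positivity) (by positivity)]
        have h5 : N i ^ m * N i = N i ^ v * N i ^ e := by
          rw [← pow_succ, he, pow_add]
        have h6 : n ^ m * n = n ^ v * n ^ e := by
          rw [← pow_succ, he, pow_add]
        calc n ^ v * N i * N i ^ m = n ^ v * (N i ^ m * N i) := by ring
          _ = n ^ v * (N i ^ v * N i ^ e) := by rw [h5]
          _ ≤ n ^ v * (N i ^ v * n ^ e) := by
              refine mul_le_mul_of_nonneg_left (mul_le_mul_of_nonneg_left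
                (pow_le_pow_left₀ (hN0 i) (hNn i) _) (by positivity)) (by positivity)
          _ = N i ^ v * (n ^ v * n ^ e) := by ring
          _ = N i ^ v * (n ^ m * n) := by rw [h6]
      calc n ^ v / n ^ m * (N i / n * (T i / N i) ^ m)
          = (n ^ v / n ^ m * (N i / n)) * (T i / N i) ^ m := by ring
        _ ≤ (N i ^ v / N i ^ m) * (T i / N i) ^ m :=
            mul_le_mul_of_nonneg_right h4 (pow_nonneg (div_nonneg (hT0 i) (hN0 i)) _)
        _ = (T i / N i) ^ m / N i ^ m * N i ^ v := by ring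
  -- Jensen
  have hJ := Real.pow_arith_mean_le_arith_mean_pow (univ : Finset ι) (fun i => N i / n)
    (fun i => T i / N i) (fun i _ => div_nonneg (hN0 i) hn.le)
    (by rw [← Finset.sum_div, hNsum, div_self hn.ne'])
    (fun i _ => div_nonneg (hT0 i) (hN0 i)) m
  have hJ1 : ∑ i, N i / n * (T i / N i) = (∑ x, ∑ y, W x y) / n := by
    rw [← hTsum, Finset.sum_div]
    refine Finset.sum_congr rfl fun i _ => ?_
    rcases (hN0 i).eq_or_lt with hi | hi
    · rw [hTN i hi.symm, ← hi]
      simp
    · field_simp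
  rw [hJ1] at hJ
  have hfin : n ^ v / n ^ m * ((∑ x, ∑ y, W x y) / n) ^ m ≤
      ∑ z : V → X, ∏ e ∈ H.edgeFinset, ev W hs z e := by
    calc n ^ v / n ^ m * ((∑ x, ∑ y, W x y) / n) ^ m
        ≤ n ^ v / n ^ m * ∑ i, N i / n * (T i / N i) ^ m :=
          mul_le_mul_of_nonneg_left hJ (by positivity)
      _ = ∑ i, n ^ v / n ^ m * (N i / n * (T i / N i) ^ m) := Finset.mul_sum _ _ _
      _ ≤ ∑ i, h i := Finset.sum_le_sum fun i _ => hterm i
      _ ≤ _ := hhom
  show ((∑ x, ∑ y, W x y) / n ^ 2) ^ m ≤ (∑ z : V → X, ∏ e ∈ H.edgeFinset, ev W hs z e) / n ^ v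
  rw [le_div_iff₀ (pow_pos hn _)]
  refine le_trans (le_of_eq ?_) hfin
  have h3 : ((∑ x, ∑ y, W x y) / n ^ 2) ^ m = ((∑ x, ∑ y, W x y) / n) ^ m / n ^ m := by
    rw [← div_pow, div_div, pow_two]
  rw [h3]
  ring

end Vale.Agent.P050.Opt.H322
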