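import Vale.Agent.P050.O.H322.AsmCL
import Vale.Agent.P050.O.H322.PowBlock
import Vale.Agent.P050.O.H322.SumBlocks
import Vale.Agent.P050.O.H774.LongAll
import Vale.Agent.P050.O.H261.Comp
import Vale.Agent.P050.O.H111.BlakleyRoy
import Vale.Agent.P050.O.H738.CrossLimit

set_option linter.all false

/-!
High powers of kernels, all lengths.
-/

open Finset

namespace Vale.Agent.P050.Opt.H322

open Vale.Agent.P050 Vale.Agent.P050.Dense Vale.Agent.P050.Opt

/-- connected graphs, one power with the cross inequality -/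
theorem pow_ineq_conn {X : Type} [Fintype X] [DecidableEq X] [Nonempty X] (W : X → X → ℝ)
    (hs : ∀ x y, W x y = W y x) (h0 : ∀ x y, 0 ≤ W x y) {D : ℕ} (hD : 1 ≤ D) {η : ℝ}
    (hη0 : 0 ≤ η) (hη : 3 * 10 ^ 13 * (D:ℝ) * η ≤ 1) (k : ℕ)
    (hcross : ∀ x a y b, (∃ j : ℕ, 0 < (Matrix.of W ^ (2 * j)) x a) →
      (∃ j : ℕ, 0 < (Matrix.of W ^ (2 * j)) y b) →
      (Matrix.of W ^ k) x y * (Matrix.of W ^ k) a b ≤
        (1 + η) * ((Matrix.of W ^ k) x b * (Matrix.of W ^ k) a y))
    {V : Type} [Fintype V] [DecidableEq V] (H : SimpleGraph V) [DecidableRel H.Adj]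
    (hH : H.IsBipartite) (hc : H.Connected) (hcl : CLIneq D H) :
    pden (kpow W k) ^ H.edgeFinset.card ≤ tden H (kpow W k) (kpow_symm hs k) := by
  classical
  have hs' : ∀ x y, Matrix.of W x y = Matrix.of W y x := hs
  have h0' : ∀ x y, 0 ≤ Matrix.of W x y := h0
  have hn : (0:ℝ) < Fintype.card X := by exact_mod_cast Fintype.card_pos
  set c : ℝ := (Fintype.card X : ℝ) ^ (k - 1) with hc'
  have hcp : 0 < c := pow_pos hn _
  have hK : ∀ x y, kpow W k x y = c⁻¹ * (Matrix.of W ^ k) x y := fun x y => by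
    rw [kpow, div_eq_inv_mul]
  have hK0 : ∀ x y, 0 ≤ kpow W k x y := fun x y => by
    rw [hK]
    exact mul_nonneg (inv_nonneg.mpr hcp.le) (pow_nn h0' _ _ _)
  have hKz : ∀ x y, (Matrix.of W ^ k) x y = 0 → kpow W k x y = 0 := fun x y h => by
    rw [hK, h, mul_zero]
  have hKp : ∀ x y, kpow W k x y ≠ 0 → 0 < (Matrix.of W ^ k) x y := fun x y h =>
    lt_of_le_of_ne (pow_nn h0' _ _ _) fun h' => h (hKz _ _ h'.symm)
  have hcr : ∀ x a y b, EE (Matrix.of W) x a → EE (Matrix.of W) y b →
      kpow W k x y * kpow W k a b ≤ (1 + η) * (kpow W k x b * kpow W k a y) := by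
    intro x a y b h1 h2
    have h3 := mul_le_mul_of_nonneg_left (hcross x a y b h1 h2)
      (mul_nonneg (inv_nonneg.mpr hcp.le) (inv_nonneg.mpr hcp.le))
    rw [hK, hK, hK, hK]
    calc _ = c⁻¹ * c⁻¹ * ((Matrix.of W ^ k) x y * (Matrix.of W ^ k) a b) := by ring
      _ ≤ _ := h3
      _ = _ := by ring
  have hη1 : 10 ^ 13 * (D:ℝ) * η ≤ 1 := by
    have h1 : 0 ≤ 10 ^ 13 * (D:ℝ) * η := by positivity
    linarith
  rcases Nat.even_or_odd k with he | ho
  · -- even: the blocks are the classes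
    have hsym : ∀ {x y : X}, EE (Matrix.of W) x y → EE (Matrix.of W) y x := fun h => h.symm hs'
    refine sum_blocks H hc (kpow W k) (kpow_symm hs k) hK0
      (fun x => univ.filter fun y => EE (Matrix.of W) x y) (fun x y hxy => ?_) (fun i hi => ?_)
    · by_contra hne
      apply hxy
      have h1 : EE (Matrix.of W) x y := by
        obtain ⟨j, rfl⟩ := he
        exact ⟨j, by rw [two_mul]; exact hKp x y hne⟩
      ext z
      simp only [Finset.mem_filter, Finset.mem_univ, true_and]
      exact ⟨fun h => (hsym h1).trans h0' h, fun h => h1.trans h0' h⟩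
    · refine pow_block_even hcl hη0 hη1 (Matrix.of W) (kpow W k) (kpow_symm hs k) hK0 hcr _
        (fun x y hxy => ?_) i
      have h1 : y ∈ univ.filter fun z => EE (Matrix.of W) y z := by
        simp only [Finset.mem_filter, Finset.mem_univ, true_and]
        exact EE.refl y
      change (univ.filter fun z => EE (Matrix.of W) x z) = univ.filter fun z => EE (Matrix.of W) y z at hxy
      rw [← hxy] at h1
      simpa using h1
  · -- odd: the blocks are the components
    refine sum_blocks H hc (kpow W k) (kpow_symm hs k) hK0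
      (fun x => univ.filter fun y => BB (Matrix.of W) x y) (fun x y hxy => ?_) (fun i hi => ?_)
    · by_contra hne
      apply hxy
      have h1 : 0 < (Matrix.of W ^ k) x y := hKp x y hne
      ext z
      simp only [Finset.mem_filter, Finset.mem_univ, true_and]
      constructor
      · rintro ⟨j, hj⟩
        refine ⟨k + j, pow_trans h0' ?_ hj⟩
        rw [pow_sym hs']
        exact h1
      · rintro ⟨j, hj⟩
        exact ⟨k + j, pow_trans h0' h1 hj⟩
    · refine pow_block_odd hH hcl hD hη0 hη (Matrix.of W) hs' h0' ho (kpow W k) (kpow_symm hs k)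
        hK0 hKz hcr _ (fun x y hxy => ?_) i
      have h1 : y ∈ univ.filter fun z => BB (Matrix.of W) y z := by
        simp only [Finset.mem_filter, Finset.mem_univ, true_and]
        exact ⟨0, by simp⟩
      change (univ.filter fun z => BB (Matrix.of W) x z) = univ.filter fun z => BB (Matrix.of W) y z at hxy
      rw [← hxy] at h1
      simpa using h1

/-- one power with the cross inequality -/
theorem pow_ineq {X : Type} [Fintype X] [DecidableEq X] [Nonempty X] (W : X → X → ℝ)
    (hs : ∀ x y, W x y = W y x) (h0 : ∀ x y, 0 ≤ W x y) {D : ℕ} (hD : 1 ≤ D) {η : ℝ}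
    (hη0 : 0 ≤ η) (hη : 3 * 10 ^ 13 * (D:ℝ) * η ≤ 1) {k : ℕ} (hk : 1 ≤ k)
    (hcross : ∀ x a y b, (∃ j : ℕ, 0 < (Matrix.of W ^ (2 * j)) x a) →
      (∃ j : ℕ, 0 < (Matrix.of W ^ (2 * j)) y b) →
      (Matrix.of W ^ k) x y * (Matrix.of W ^ k) a b ≤
        (1 + η) * ((Matrix.of W ^ k) x b * (Matrix.of W ^ k) a y))
    {V : Type} [Fintype V] [DecidableEq V] (H : SimpleGraph V) [DecidableRel H.Adj]
    (hH : H.IsBipartite) (hHD : ∀ v, (H.neighborSet v).ncard ≤ D) :
    pden W ^ (k * H.edgeFinset.card) ≤ tden H (kpow W k) (kpow_symm hs k) := by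
  classical
  have h0' : ∀ x y, 0 ≤ Matrix.of W x y := h0
  have hn : (0:ℝ) < Fintype.card X := by exact_mod_cast Fintype.card_pos
  have hK0 : ∀ x y, 0 ≤ kpow W k x y := fun x y =>
    div_nonneg (pow_nn h0' _ _ _) (pow_pos hn _).le
  have hp : 0 ≤ pden W :=
    div_nonneg (Finset.sum_nonneg fun x _ => Finset.sum_nonneg fun y _ => h0 _ _) (by positivity)
  rw [pow_mul]
  refine (pow_le_pow_left₀ (pow_nonneg hp _) (H111.pden_kpow hs h0 hk) _).trans ?_
  refine H261.pden_le_of_conn H (kpow_symm hs k) hK0 fun c => ?_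
  intro _ _ _
  have hb : (H.induce c.supp).IsBipartite := H261.induce_bip hH _
  exact pow_ineq_conn W hs h0 hD hη0 hη k hcross (H.induce c.supp) hb (H261.comp_conn H c)
    (clIneq_asm hD (Assembled.base _ _ (Finite.of_fintype _) hb (H261.induce_deg hHD _)))

/-- **High powers of kernels.** -/
theorem stK : H774.StK := by
  intro X _ _ _ W hs h0 D
  have hD' : (0:ℝ) < 3 * 10 ^ 13 * ((max D 1 : ℕ) : ℝ) := by
    have : 0 < max D 1 := lt_of_lt_of_le one_pos (le_max_right _ _)
    positivity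
  obtain ⟨k0, hk0⟩ := H738NB.cross_limit (Matrix.of W) hs h0 (one_div_pos.mpr hD')
  refine ⟨max k0 1, fun k hk V _ _ H _ hH hHD => ?_⟩
  refine pow_ineq W hs h0 (D := max D 1) (le_max_right _ _) (one_div_pos.mpr hD').le
    (le_of_eq (mul_one_div_cancel hD'.ne')) (le_trans (le_max_right _ _) hk)
    (hk0 k (le_trans (le_max_left _ _) hk)) H hH fun v => (hHD v).trans (le_max_left _ _)

end Vale.Agent.P050.Opt.H322
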