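import Vale.Agent.P050.O.H322.Subdiv

set_option linter.all false

/-!
Subdivisions with paths of even length are bipartite; a subdivision of a bipartite graph with
paths of odd length is bipartite.
-/

open Finset

namespace Vale.Agent.P050.Opt.H322

open Vale.Agent.P050 Vale.Agent.P050.Dense Vale.Agent.P050.Opt

theorem subdiv_even_bip {V : Type} (F : SimpleGraph V) {ℓ : ℕ} (hℓ : 1 ≤ ℓ) (he : Even ℓ) :
    (subdiv ℓ F).IsBipartite := by
  classical
  -- colour by the parity of the position
  let c : V ⊕ (F.edgeSet × Fin (ℓ - 1)) → ℕ := fun x =>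
    Sum.elim (fun _ => 0) (fun p => p.2.val + 1) x
  have hc : ∀ (e : F.edgeSet) (i : ℕ), i ≤ ℓ → c (node F ℓ e i) % 2 = i % 2 := by
    intro e i hi
    rcases Nat.eq_zero_or_pos i with rfl | h0
    · rw [node_zero]
      rfl
    · rcases Nat.lt_or_ge i ℓ with h1 | h1
      · rw [node_mid F e h0 h1]
        show (i - 1 + 1) % 2 = i % 2
        congr 1
        omega
      · obtain rfl : i = ℓ := by omega
        rw [node_last F hℓ]
        show 0 % 2 = i % 2
        obtain ⟨r, hr⟩ := he
        omega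
  have key : ∀ (e : F.edgeSet) (i : ℕ), i < ℓ →
      c (node F ℓ e i) % 2 ≠ c (node F ℓ e (i + 1)) % 2 := by
    intro e i hi
    rw [hc e i hi.le, hc e (i + 1) hi]
    omega
  refine ⟨SimpleGraph.Coloring.mk (fun x => (⟨c x % 2, Nat.mod_lt _ (by norm_num)⟩ : Fin 2)) ?_⟩
  intro x y hxy
  rw [subdiv, SimpleGraph.fromRel_adj] at hxy
  intro h
  have h' : c x % 2 = c y % 2 := congrArg Fin.val h
  rcases hxy.2 with ⟨e, i, hi, hx, hy⟩ | ⟨e, i, hi, hy, hx⟩
  · rw [hx, hy] at h'
    exact key e i hi h'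
  · rw [hx, hy] at h'
    exact key e i hi h'.symm

theorem subdiv_two_bip {V : Type} (F : SimpleGraph V) : (subdiv 2 F).IsBipartite :=
  subdiv_even_bip F (by norm_num) (by norm_num)

end Vale.Agent.P050.Opt.H322
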