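import Vale.Agent.P050.O.H322.Kpow

set_option linter.all false

/-!
The density of a subdivision.
-/

open Finset

namespace Vale.Agent.P050.Opt

open Vale.Agent.P050 Vale.Agent.P050.Dense

/-- the value at the position `i` of a path with `k + 1` edges from `a` to `b` -/
def nval {X : Type} {k : ℕ} (a b : X) (y : Fin k → X) (i : ℕ) : X :=
  if h : 0 < i ∧ i < k + 1 then y ⟨i - 1, by omega⟩ else if i = 0 then a else b

theorem nval_zero {X : Type} {k : ℕ} (a b : X) (y : Fin k → X) : nval a b y 0 = a := by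
  simp [nval]

theorem nval_cons {X : Type} {k : ℕ} (a b c : X) (y : Fin k → X) (i : ℕ) :
    nval a b (Fin.cons c y : Fin (k + 1) → X) (i + 1) = nval c b y i := by
  unfold nval
  rcases Nat.eq_zero_or_pos i with rfl | hi
  · simp
  · by_cases h : i < k + 1
    · rw [dif_pos (by omega), dif_pos (by omega)]
      obtain ⟨j, rfl⟩ : ∃ j, i = j + 1 := ⟨i - 1, by omega⟩
      have : (⟨j + 1 + 1 - 1, by omega⟩ : Fin (k + 1)) = Fin.succ ⟨j, by omega⟩ := by
        ext; simp
      rw [this, Fin.cons_succ]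
      congr 1
    · rw [dif_neg (by omega), dif_neg (by omega), if_neg (by omega), if_neg (by omega)]

theorem path_sum {X : Type} [Fintype X] [DecidableEq X] (W : X → X → ℝ) (k : ℕ) :
    ∀ a b : X, ∑ y : Fin k → X, ∏ i ∈ range (k + 1), W (nval a b y i) (nval a b y (i + 1)) =
      (Matrix.of W ^ (k + 1)) a b := by
  induction k with
  | zero =>
    intro a b
    simp [nval]
  | succ k ih =>
    intro a b
    rw [← (Fin.consEquiv (fun _ : Fin (k + 1) => X)).sum_comp, Fintype.sum_prod_type,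
      pow_succ', Matrix.mul_apply]
    refine Finset.sum_congr rfl fun c _ => ?_
    rw [← ih c b, Finset.mul_sum]
    refine Finset.sum_congr rfl fun y _ => ?_
    have h1 : (Fin.consEquiv (fun _ : Fin (k + 1) => X)) (c, y) =
        (Fin.cons c y : Fin (k + 1) → X) := rfl
    rw [h1, Finset.prod_range_succ', nval_zero, nval_cons, nval_zero, mul_comm]
    congr 1
    refine Finset.prod_congr rfl fun i _ => ?_
    rw [nval_cons, nval_cons]

section

variable {V : Type} (F : SimpleGraph V) {ℓ : ℕ}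

theorem node_zero (e : F.edgeSet) : node F ℓ e 0 = Sum.inl (Quot.out e.1).1 := by
  simp [node]

theorem node_mid (e : F.edgeSet) {i : ℕ} (h1 : 0 < i) (h2 : i < ℓ) :
    node F ℓ e i = Sum.inr (e, ⟨i - 1, by omega⟩) := by
  unfold node
  rw [dif_pos ⟨h1, h2⟩]

theorem node_last (hℓ : 1 ≤ ℓ) (e : F.edgeSet) :
    node F ℓ e ℓ = Sum.inl (Quot.out e.1).2 := by
  unfold node
  rw [dif_neg (by omega), if_neg (by omega)]

theorem out_eq (e : F.edgeSet) : s((Quot.out e.1).1, (Quot.out e.1).2) = e.1 := by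
  have h := Quot.out_eq e.1
  exact h

theorem out_adj (e : F.edgeSet) : F.Adj (Quot.out e.1).1 (Quot.out e.1).2 := by
  rw [← SimpleGraph.mem_edgeSet, out_eq]
  exact e.2

theorem node_inj_mid {e e' : F.edgeSet} {i j : ℕ} (h1 : 0 < i) (h2 : i < ℓ)
    (h : node F ℓ e i = node F ℓ e' j) : e = e' ∧ i = j := by
  rw [node_mid F e h1 h2] at h
  by_cases hj : 0 < j ∧ j < ℓ
  · rw [node_mid F e' hj.1 hj.2] at h
    have h3 := Sum.inr.inj h
    have h4 := congrArg Prod.fst h3
    have h5 := congrArg (fun p => (p.2 : Fin (ℓ - 1)).val) h3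
    simp only at h4 h5
    exact ⟨h4, by omega⟩
  · exfalso
    unfold node at h
    rw [dif_neg hj] at h
    split_ifs at h

theorem node_inj {e : F.edgeSet} {i j : ℕ} (hi : i ≤ ℓ) (hj : j ≤ ℓ) (hℓ : 1 ≤ ℓ)
    (h : node F ℓ e i = node F ℓ e j) : i = j := by
  by_cases h1 : 0 < i ∧ i < ℓ
  · exact (node_inj_mid F h1.1 h1.2 h).2
  by_cases h2 : 0 < j ∧ j < ℓ
  · exact (node_inj_mid F h2.1 h2.2 h.symm).2.symm
  have h3 := (out_adj F e).ne
  rcases Nat.eq_zero_or_pos i with rfl | hi0
  · rcases Nat.eq_zero_or_pos j with rfl | hj0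
    · rfl
    · obtain rfl : j = ℓ := by omega
      rw [node_zero, node_last F hℓ] at h
      exact absurd (Sum.inl.inj h) h3
  · obtain rfl : i = ℓ := by omega
    rcases Nat.eq_zero_or_pos j with rfl | hj0
    · rw [node_zero, node_last F hℓ] at h
      exact absurd (Sum.inl.inj h).symm h3
    · omega

theorem prod_subdiv (hℓ : 1 ≤ ℓ) [Fintype F.edgeSet] [Fintype (subdiv ℓ F).edgeSet]
    (g : Sym2 (V ⊕ (F.edgeSet × Fin (ℓ - 1))) → ℝ) :
    ∏ e ∈ (subdiv ℓ F).edgeFinset, g e =
      ∏ e : F.edgeSet, ∏ i ∈ range ℓ, g s(node F ℓ e i, node F ℓ e (i + 1)) := by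
  classical
  rw [← Finset.prod_product']
  symm
  refine Finset.prod_bij (fun p _ => s(node F ℓ p.1 p.2, node F ℓ p.1 (p.2 + 1))) ?_ ?_ ?_ ?_
  · rintro ⟨e, i⟩ hp
    simp only [Finset.mem_product, Finset.mem_univ, true_and, Finset.mem_range] at hp
    rw [SimpleGraph.mem_edgeFinset, SimpleGraph.mem_edgeSet, subdiv, SimpleGraph.fromRel_adj]
    refine ⟨fun h => ?_, Or.inl ⟨e, i, hp, rfl, rfl⟩⟩
    have := node_inj F (by omega) (by omega) hℓ h
    omega
  · rintro ⟨e, i⟩ hp ⟨e', j⟩ hq h
    simp only [Finset.mem_product, Finset.mem_univ, true_and, Finset.mem_range] at hp hq h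
    have hee : e = e' := by
      by_cases h1 : ℓ = 1
      · subst h1
        obtain rfl : i = 0 := by omega
        obtain rfl : j = 0 := by omega
        have h3 : node F 1 e (0 + 1) = Sum.inl (Quot.out e.1).2 := node_last F le_rfl e
        have h4 : node F 1 e' (0 + 1) = Sum.inl (Quot.out e'.1).2 := node_last F le_rfl e'
        rw [node_zero, node_zero, h3, h4] at h
        have h5 : s((Quot.out e.1).1, (Quot.out e.1).2) =
            s((Quot.out e'.1).1, (Quot.out e'.1).2) := by
          rw [Sym2.eq_iff] at h ⊢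
          rcases h with h | h
          · exact Or.inl ⟨Sum.inl.inj h.1, Sum.inl.inj h.2⟩
          · exact Or.inr ⟨Sum.inl.inj h.1, Sum.inl.inj h.2⟩
        rw [out_eq, out_eq] at h5
        exact Subtype.ext h5
      · rw [Sym2.eq_iff] at h
        by_cases hi : 0 < i
        · rcases h with h | h
          · exact (node_inj_mid F hi hp h.1).1
          · exact (node_inj_mid F hi hp h.1).1
        · rcases h with h | h
          · exact (node_inj_mid F (by omega) (by omega) h.2).1
          · exact (node_inj_mid F (by omega) (by omega) h.2).1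
    subst hee
    rw [Sym2.eq_iff] at h
    rcases h with h | h
    · have := node_inj F (by omega) (by omega) hℓ h.1
      subst this
      rfl
    · have h1 := node_inj F (by omega) (by omega) hℓ h.1
      have h2 := node_inj F (by omega) (by omega) hℓ h.2
      omega
  · intro q hq
    induction q using Sym2.ind with
    | _ u v =>
      rw [SimpleGraph.mem_edgeFinset, SimpleGraph.mem_edgeSet, subdiv,
        SimpleGraph.fromRel_adj] at hq
      rcases hq.2 with ⟨e, i, hi, hu, hv⟩ | ⟨e, i, hi, hu, hv⟩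
      · refine ⟨(e, i), by simp [hi], ?_⟩
        rw [hu, hv]
      · refine ⟨(e, i), by simp [hi], ?_⟩
        rw [hu, hv]
        exact Sym2.eq_swap
  · intro p hp
    rfl

end

/-- J2: the density of a subdivision -/
theorem tden_subdiv {V X : Type} [Fintype V] [DecidableEq V] [Fintype X] [DecidableEq X]
    [Nonempty X] (F : SimpleGraph V) [DecidableRel F.Adj] {ℓ : ℕ} (hℓ : 1 ≤ ℓ)
    [Fintype (V ⊕ (F.edgeSet × Fin (ℓ - 1)))] [DecidableEq (V ⊕ (F.edgeSet × Fin (ℓ - 1)))]
    [DecidableRel (subdiv ℓ F).Adj] (W : X → X → ℝ) (hs : ∀ x y, W x y = W y x) :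
    tden (subdiv ℓ F) W hs = tden F (kpow W ℓ) (kpow_symm hs ℓ) := by
  obtain ⟨k, rfl⟩ : ∃ k, ℓ = k + 1 := ⟨ℓ - 1, by omega⟩
  have hn : (0:ℝ) < Fintype.card X := by
    exact_mod_cast Fintype.card_pos
  -- the value at a node
  have hnode : ∀ (z : V ⊕ (F.edgeSet × Fin (k + 1 - 1)) → X) (e : F.edgeSet) (i : ℕ),
      z (node F (k + 1) e i) = nval (k := k) (z (Sum.inl (Quot.out e.1).1))
        (z (Sum.inl (Quot.out e.1).2)) (fun j => z (Sum.inr (e, j))) i := by
    intro z e i
    unfold node nval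
    split_ifs <;> rfl
  -- the sum
  have hsum : (∑ z : V ⊕ (F.edgeSet × Fin (k + 1 - 1)) → X,
      ∏ e ∈ (subdiv (k + 1) F).edgeFinset, ev W hs z e) =
      ∑ x : V → X, ∏ e : F.edgeSet,
        (Matrix.of W ^ (k + 1)) (x (Quot.out e.1).1) (x (Quot.out e.1).2) := by
    have h1 : ∀ z : V ⊕ (F.edgeSet × Fin (k + 1 - 1)) → X,
        ∏ e ∈ (subdiv (k + 1) F).edgeFinset, ev W hs z e =
        ∏ e : F.edgeSet, ∏ i ∈ range (k + 1),
          W (nval (k := k) (z (Sum.inl (Quot.out e.1).1)) (z (Sum.inl (Quot.out e.1).2))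
              (fun j => z (Sum.inr (e, j))) i)
            (nval (k := k) (z (Sum.inl (Quot.out e.1).1)) (z (Sum.inl (Quot.out e.1).2))
              (fun j => z (Sum.inr (e, j))) (i + 1)) := by
      intro z
      rw [prod_subdiv F hℓ]
      refine Finset.prod_congr rfl fun e _ => Finset.prod_congr rfl fun i _ => ?_
      rw [← hnode, ← hnode]
      rfl
    have h2 : ∀ x : V → X, ∏ e : F.edgeSet,
        (Matrix.of W ^ (k + 1)) (x (Quot.out e.1).1) (x (Quot.out e.1).2) =
        ∑ y : F.edgeSet → Fin k → X, ∏ e : F.edgeSet, ∏ i ∈ range (k + 1),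
          W (nval (x (Quot.out e.1).1) (x (Quot.out e.1).2) (y e) i)
            (nval (x (Quot.out e.1).1) (x (Quot.out e.1).2) (y e) (i + 1)) := by
      intro x
      have h3 : ∀ e : F.edgeSet,
          (Matrix.of W ^ (k + 1)) (x (Quot.out e.1).1) (x (Quot.out e.1).2) =
          ∑ u ∈ (Finset.univ : Finset (Fin k → X)), ∏ i ∈ range (k + 1),
            W (nval (x (Quot.out e.1).1) (x (Quot.out e.1).2) u i)
              (nval (x (Quot.out e.1).1) (x (Quot.out e.1).2) u (i + 1)) :=
        fun e => (path_sum W k _ _).symm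
      rw [Finset.prod_congr rfl fun e _ => h3 e, Finset.prod_univ_sum, Fintype.piFinset_univ]
    rw [Finset.sum_congr rfl fun x _ => h2 x]
    let φ : (V ⊕ (F.edgeSet × Fin (k + 1 - 1)) → X) ≃ (V → X) × (F.edgeSet → Fin k → X) :=
      (Equiv.sumArrowEquivProdArrow V (F.edgeSet × Fin k) X).trans
        (Equiv.prodCongr (Equiv.refl _) (Equiv.curry F.edgeSet (Fin k) X))
    refine (Fintype.sum_equiv φ _
      (fun p : (V → X) × (F.edgeSet → Fin k → X) => ∏ e : F.edgeSet, ∏ i ∈ range (k + 1),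
          W (nval (p.1 (Quot.out e.1).1) (p.1 (Quot.out e.1).2) (p.2 e) i)
            (nval (p.1 (Quot.out e.1).1) (p.1 (Quot.out e.1).2) (p.2 e) (i + 1)))
      fun z => ?_).trans (Fintype.sum_prod_type _)
    rw [h1 z]
    rfl
  have hF : ∀ x : V → X, ∏ e ∈ F.edgeFinset, ev (kpow W (k + 1)) (kpow_symm hs (k + 1)) x e =
      (∏ e : F.edgeSet,
        (Matrix.of W ^ (k + 1)) (x (Quot.out e.1).1) (x (Quot.out e.1).2)) /
        ((Fintype.card X : ℝ) ^ k) ^ Fintype.card F.edgeSet := by
    intro x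
    have h4 : ∏ e ∈ F.edgeFinset, ev (kpow W (k + 1)) (kpow_symm hs (k + 1)) x e =
        ∏ e : F.edgeSet, ev (kpow W (k + 1)) (kpow_symm hs (k + 1)) x e.1 :=
      (Finset.prod_set_coe F.edgeSet).symm
    have h5 : ∀ e : F.edgeSet, ev (kpow W (k + 1)) (kpow_symm hs (k + 1)) x e.1 =
        (Matrix.of W ^ (k + 1)) (x (Quot.out e.1).1) (x (Quot.out e.1).2) /
          (Fintype.card X : ℝ) ^ k := by
      intro e
      conv_lhs => rw [← out_eq F e]
      rfl
    rw [h4, Finset.prod_congr rfl fun e _ => h5 e, Finset.prod_div_distrib, Finset.prod_const,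
      Finset.card_univ]
  have hcard : Fintype.card (V ⊕ (F.edgeSet × Fin (k + 1 - 1))) =
      Fintype.card V + Fintype.card F.edgeSet * k := by
    rw [← Nat.card_eq_fintype_card, Nat.card_sum, Nat.card_prod, Nat.card_eq_fintype_card,
      Nat.card_eq_fintype_card, Nat.card_eq_fintype_card, Fintype.card_fin,
      Nat.add_sub_cancel]
  unfold tden
  rw [hsum, hcard, Finset.sum_congr rfl fun x _ => hF x, ← Finset.sum_div, div_div]
  congr 1
  rw [pow_add, ← pow_mul]
  ring

end Vale.Agent.P050.Opt
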