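import Vale.Agent.P050.R3.H904.ToGraph

set_option linter.all false

/-!
Two-colourings: their number, and the homomorphism sum sorted by the sides.
-/

open Finset

namespace Vale.Agent.P050.Opt.H322

open Vale.Agent.P050 Vale.Agent.P050.Dense

/-- there are at least `2 ^ (n - m)` proper 2-colourings, if there is one -/
theorem two_col {V : Type*} [Fintype V] [DecidableEq V] (H : SimpleGraph V) [DecidableRel H.Adj]
    (s₀ : V → Bool) (h₀ : ∀ u v, H.Adj u v → s₀ u ≠ s₀ v) :
    2 ^ Fintype.card V ≤
      (univ.filter fun s : V → Bool => ∀ u v, H.Adj u v → s u ≠ s v).card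
        * 2 ^ H.edgeFinset.card := by
  classical
  let T : (V → Bool) → Sym2 V → Bool := fun t e =>
    Sym2.lift ⟨fun u v => xor (t u) (t v), fun u v => Bool.xor_comm _ _⟩ e
  have hT : ∀ t u v, T t s(u, v) = xor (t u) (t v) := fun t u v => rfl
  let T' : (V → Bool) → ({e // e ∈ H.edgeFinset} → Bool) := fun t e => T t e.1
  have key := Finset.card_le_mul_card_image (f := T') (univ : Finset (V → Bool))
    ((univ.filter fun s : V → Bool => ∀ u v, H.Adj u v → s u ≠ s v).card) (by
      intro a ha
      rw [Finset.mem_image] at ha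
      obtain ⟨t₀, -, rfl⟩ := ha
      refine Finset.card_le_card_of_injOn (fun t v => xor (xor (t v) (t₀ v)) (s₀ v)) ?_ ?_
      · intro t ht
        simp only [Finset.coe_filter, Finset.mem_univ, true_and, Set.mem_setOf_eq] at ht ⊢
        intro u v huv
        have h1 := congrFun ht ⟨s(u, v), by
          rw [SimpleGraph.mem_edgeFinset, SimpleGraph.mem_edgeSet]; exact huv⟩
        have h2 : xor (t u) (t v) = xor (t₀ u) (t₀ v) := h1
        have h3 := h₀ u v huv
        revert h2 h3
        cases t u <;> cases t v <;> cases t₀ u <;> cases t₀ v <;> cases s₀ u <;> cases s₀ v <;>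
          decide
      · intro t ht t' ht' h
        funext v
        have h1 := congrFun h v
        simp only at h1
        revert h1
        cases t v <;> cases t' v <;> cases t₀ v <;> cases s₀ v <;> decide)
  have h1 : (univ : Finset (V → Bool)).card = 2 ^ Fintype.card V := by
    rw [Finset.card_univ, Fintype.card_fun, Fintype.card_bool]
  have h2 : (Finset.image T' univ).card ≤ 2 ^ H.edgeFinset.card := by
    refine (Finset.card_le_univ _).trans (le_of_eq ?_)
    rw [Fintype.card_fun, Fintype.card_bool, Fintype.card_coe]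
  rw [h1] at key
  exact key.trans (Nat.mul_le_mul_left _ h2)

/-- the part of the homomorphism sum with prescribed sides -/
noncomputable def hS {V Ω : Type} [Fintype V] [DecidableEq V] [Fintype Ω] (side : Ω → Bool)
    (H : SimpleGraph V) [DecidableRel H.Adj] (W : Ω → Ω → ℝ) (hs : ∀ x y, W x y = W y x)
    (s : V → Bool) : ℝ :=
  ∑ φ : ((v : V) → {a : Ω // side a = s v}), ∏ e ∈ H.edgeFinset, ev W hs (fun v => (φ v).1) e

theorem hS_nonneg {V Ω : Type} [Fintype V] [DecidableEq V] [Fintype Ω] (side : Ω → Bool)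
    (H : SimpleGraph V) [DecidableRel H.Adj] (W : Ω → Ω → ℝ) (hs : ∀ x y, W x y = W y x)
    (h0 : ∀ x y, 0 ≤ W x y) (s : V → Bool) : 0 ≤ hS side H W hs s := by
  refine Finset.sum_nonneg fun φ _ => Finset.prod_nonneg fun e _ => ?_
  induction e using Sym2.ind with
  | _ u v => exact h0 _ _

/-- improper colourings contribute nothing -/
theorem hS_eq_zero {V Ω : Type} [Fintype V] [DecidableEq V] [Fintype Ω] (side : Ω → Bool)
    (H : SimpleGraph V) [DecidableRel H.Adj] (W : Ω → Ω → ℝ) (hs : ∀ x y, W x y = W y x)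
    (hW : ∀ x y, side x = side y → W x y = 0) (s : V → Bool)
    (h : ¬ ∀ u v, H.Adj u v → s u ≠ s v) : hS side H W hs s = 0 := by
  push Not at h
  obtain ⟨u, v, huv, hsv⟩ := h
  refine Finset.sum_eq_zero fun φ _ => Finset.prod_eq_zero (i := s(u, v)) (by
    rw [SimpleGraph.mem_edgeFinset, SimpleGraph.mem_edgeSet]; exact huv) ?_
  show W (φ u).1 (φ v).1 = 0
  exact hW _ _ (by rw [(φ u).2, (φ v).2, hsv])

/-- the homomorphism sum, sorted by the sides -/
theorem sum_eq_sum_hS {V Ω : Type} [Fintype V] [DecidableEq V] [Fintype Ω] (side : Ω → Bool)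
    (H : SimpleGraph V) [DecidableRel H.Adj] (W : Ω → Ω → ℝ) (hs : ∀ x y, W x y = W y x) :
    ∑ z : V → Ω, ∏ e ∈ H.edgeFinset, ev W hs z e = ∑ s : V → Bool, hS side H W hs s := by
  classical
  rw [← Finset.sum_fiberwise (univ : Finset (V → Ω)) (fun z v => side (z v))]
  refine Finset.sum_congr rfl fun s _ => ?_
  unfold hS
  refine Finset.sum_bij' (fun z hz v => ⟨z v, ?_⟩) (fun φ _ v => (φ v).1) ?_ ?_ ?_ ?_ ?_
  · exact congrFun (Finset.mem_filter.1 hz).2 v
  · intro z hz
    exact Finset.mem_univ _
  · intro φ hφ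
    rw [Finset.mem_filter]
    exact ⟨Finset.mem_univ _, funext fun v => (φ v).2⟩
  · intro z hz
    rfl
  · intro φ hφ
    rfl
  · intro z hz
    rfl

end Vale.Agent.P050.Opt.H322
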